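import Vale.Agent.P213.SSet.Gluing

/-!
# P213: fibrations which are weak equivalences

A Kan fibration over a simplex which is a weak equivalence has the right lifting property against
monomorphisms: the simplex contracts onto its last vertex and the fibre is a contractible Kan
complex. A functor with Kan values, preserving pullbacks and fibrations and weakly equivalent to
the identity extends this to every base.
-/

universe u

namespace Vale.Agent.P213.SSetH

open CategoryTheory MonoidalCategory CartesianMonoidalCategory MonoidalClosed Simplicial Limits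
  HomotopicalAlgebra SSet SSet.modelCategoryQuillen Opposite

noncomputable section

variable {X Y Z A B E : SSet.{u}}

/-- Homotopy equivalences, with homotopies in the other direction. -/
theorem we_of_htpEquiv' (f : X ⟶ Y) (g : Y ⟶ X) (h₁ : Htp (𝟙 X) (f ≫ g)) (h₂ : Htp (𝟙 Y) (g ≫ f)) :
    WE f := fun K hK => by
  refine ⟨fun k => ⟨g ≫ k, by simpa using (h₁.comp_right k).symm⟩, fun h h' hh => ?_⟩
  have e := hh.comp_left g
  have e1 : Htp h (g ≫ f ≫ h) := by simpa using h₂.comp_right h
  have e2 : Htp h' (g ≫ f ≫ h') := by simpa using h₂.comp_right h'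
  exact (e1.trans e).trans e2.symm

/-- A weak equivalence of Kan complexes is a homotopy equivalence. -/
theorem exists_htpInverse [KanComplex X] [KanComplex Y] (f : X ⟶ Y) (hf : WE f) :
    ∃ g : Y ⟶ X, Htp (f ≫ g) (𝟙 X) ∧ Htp (g ≫ f) (𝟙 Y) := by
  obtain ⟨g, hg⟩ := (hf X inferInstance).1 (𝟙 X)
  exact ⟨g, hg, (hf Y inferInstance).2 _ _ (by simpa using hg.comp_right f)⟩

theorem rlp_mono_of_we [KanComplex X] [KanComplex Y] (p : X ⟶ Y) [Fibration p] (hp : WE p) :
    (MorphismProperty.monomorphisms SSet.{u}).rlp p := by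
  obtain ⟨s, h₁, h₂⟩ := exists_htpInverse p hp
  exact rlp_mono_of_htpEquiv p s h₁ h₂

theorem fibration_snd (p : X ⟶ Y) [Fibration p] (g : Z ⟶ Y) :
    Fibration (pullback.snd p g) := by
  rw [HomotopicalAlgebra.fibration_iff, fibrations_eq]
  refine MorphismProperty.of_isPullback (IsPullback.of_hasPullback p g) ?_
  rw [← fibrations_eq, ← HomotopicalAlgebra.fibration_iff]
  infer_instance

theorem comp_from (f : X ⟶ Y) :
    f ≫ stdSimplex.isTerminalObj₀.from Y = stdSimplex.isTerminalObj₀.from X :=
  stdSimplex.isTerminalObj₀.hom_ext _ _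

theorem comp_from_assoc (f : X ⟶ Y) (g : (Δ[0] : SSet.{u}) ⟶ Z) :
    f ≫ stdSimplex.isTerminalObj₀.from Y ≫ g = stdSimplex.isTerminalObj₀.from X ≫ g := by
  rw [← Category.assoc, comp_from]

/-- The last vertex. -/
def lastVertex (n : ℕ) : (Δ[0] : SSet.{u}) ⟶ Δ[n] :=
  SSet.const (stdSimplex.obj₀Equiv.symm (Fin.last n))

/-- The contraction of a simplex onto its last vertex. -/
def contraction (n : ℕ) : (Δ[n] : SSet.{u}) ⊗ Δ[1] ⟶ Δ[n] where
  app m := TypeCat.ofHom fun z => stdSimplex.objMk
    { toFun := fun i =>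
        if stdSimplex.asOrderHom (z.2 : Δ[1].obj m) i = 0 then
          stdSimplex.asOrderHom (z.1 : Δ[n].obj m) i
        else Fin.last n
      monotone' := fun i j hij => by
        have h2 := (stdSimplex.asOrderHom (z.2 : Δ[1].obj m)).monotone hij
        have h1 := (stdSimplex.asOrderHom (z.1 : Δ[n].obj m)).monotone hij
        dsimp only
        split_ifs with a c c
        · exact h1
        · exact Fin.le_last _
        · rw [c] at h2
          exact absurd (le_antisymm h2 (Fin.zero_le _)) a
        · exact le_rfl }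
  naturality m m' f := by ext z; rfl

theorem ι₀_contraction (n : ℕ) : SSet.ι₀ ≫ contraction.{u} n = 𝟙 _ := by
  ext ⟨k⟩ x
  induction k using SimplexCategory.rec
  ext i
  rfl

theorem ι₁_contraction (n : ℕ) :
    SSet.ι₁ ≫ contraction.{u} n = stdSimplex.isTerminalObj₀.from _ ≫ lastVertex n := by
  ext ⟨k⟩ x
  induction k using SimplexCategory.rec
  ext i
  rfl

theorem lastVertex_contraction (n : ℕ) :
    lastVertex.{u} n ▷ _ ≫ contraction n = fst _ _ ≫ lastVertex n := by
  ext ⟨k⟩ ⟨x, t⟩
  induction k using SimplexCategory.rec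
  apply SSet.stdSimplex.ext
  intro i
  show (if stdSimplex.asOrderHom t i = 0 then Fin.last n else Fin.last n) = Fin.last n
  split_ifs <;> rfl

theorem we_stdSimplex_from (n : ℕ) :
    WE (stdSimplex.isTerminalObj₀.from (Δ[n] : SSet.{u})) := by
  refine we_of_htpEquiv' _ (lastVertex n) ⟨contraction n, ι₀_contraction n, ι₁_contraction n⟩ ?_
  rw [stdSimplex.isTerminalObj₀.hom_ext (lastVertex n ≫ _) (𝟙 _)]
  exact htp_refl _

/-- A fibration over a simplex which is a weak equivalence lifts against monomorphisms. -/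
theorem rlp_mono_of_we_stdSimplex {n : ℕ} (p : E ⟶ Δ[n]) [Fibration p] (hp : WE p) :
    (MorphismProperty.monomorphisms SSet.{u}).rlp p := by
  have : KanComplex (Δ[0] : SSet.{u}) := by
    have : IsIso (terminal.from (Δ[0] : SSet.{u})) :=
      isIso_of_isTerminal stdSimplex.isTerminalObj₀.{u} terminalIsTerminal.{u} _
    exact (isFibrant_iff _).2 inferInstance
  -- the fibre over the last vertex
  let π := pullback.snd p (lastVertex n)
  let incl := pullback.fst p (lastVertex n)
  have hπf : Fibration π := by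
    exact fibration_snd p (lastVertex n)
  have : KanComplex (pullback p (lastVertex n)) := isFibrant_of_fibration π
  have hw : incl ≫ p = π ≫ lastVertex n := pullback.condition
  obtain ⟨L, hL0, hLp⟩ := lift_of_anodyne (anodyne_ι₀ E) p (𝟙 E) (p ▷ _ ≫ contraction n)
    (by rw [ι₀_comp_assoc, ι₀_contraction, Category.id_comp, Category.comp_id])
  have h1p : (SSet.ι₁ ≫ L) ≫ p = stdSimplex.isTerminalObj₀.from E ≫ lastVertex n := by
    rw [Category.assoc, hLp, ι₁_comp_assoc, ι₁_contraction,
      comp_from_assoc]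
  let r : E ⟶ pullback p (lastVertex n) := pullback.lift (SSet.ι₁ ≫ L) _ h1p
  have hr : r ≫ incl = SSet.ι₁ ≫ L := pullback.lift_fst _ _ _
  have hincl : WE incl := by
    refine we_of_htpEquiv' incl r ?_ ⟨L, hL0, hr.symm⟩
    refine ⟨pullback.lift (incl ▷ _ ≫ L) (stdSimplex.isTerminalObj₀.from _) ?_, ?_, ?_⟩
    · rw [Category.assoc, hLp, ← comp_whiskerRight_assoc, hw, comp_whiskerRight_assoc,
        lastVertex_contraction, whiskerRight_fst_assoc]
      rw [← Category.assoc]
      exact congrArg (· ≫ _) (stdSimplex.isTerminalObj₀.hom_ext _ _)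
    · apply pullback.hom_ext
      · rw [Category.assoc, pullback.lift_fst, ι₀_comp_assoc, hL0, Category.comp_id,
          Category.id_comp]
      · exact stdSimplex.isTerminalObj₀.hom_ext _ _
    · apply pullback.hom_ext
      · rw [Category.assoc, pullback.lift_fst, ι₁_comp_assoc, Category.assoc, hr]
      · exact stdSimplex.isTerminalObj₀.hom_ext _ _
  have hπ : WE π := by
    rw [stdSimplex.isTerminalObj₀.hom_ext π
      (incl ≫ p ≫ stdSimplex.isTerminalObj₀.from (Δ[n] : SSet.{u}))]
    exact hincl.comp (hp.comp (we_stdSimplex_from n))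
  have hπr := rlp_mono_of_we π hπ
  intro A' X' i (hi : Mono i)
  refine ⟨fun {a b} sq => ⟨?_⟩⟩
  let H : X' ⊗ Δ[1] ⟶ (Δ[n] : SSet.{u}) := b ▷ _ ≫ contraction n
  obtain ⟨GA, hG0, hGp⟩ := lift_of_anodyne (anodyne_ι₀ A') p a (i ▷ _ ≫ H)
    (by rw [ι₀_comp_assoc, ι₀_comp_assoc, ι₀_contraction, Category.comp_id, sq.w])
  have ha : (SSet.ι₁ ≫ GA) ≫ p = stdSimplex.isTerminalObj₀.from A' ≫ lastVertex n := by
    rw [Category.assoc, hGp, ι₁_comp_assoc, ι₁_comp_assoc, ι₁_contraction,
      comp_from_assoc, comp_from_assoc]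
  have := hπr i hi
  have sqF : CommSq (pullback.lift (SSet.ι₁ ≫ GA) _ ha) i π
      (stdSimplex.isTerminalObj₀.from X') := ⟨stdSimplex.isTerminalObj₀.hom_ext _ _⟩
  obtain ⟨M, hM1, hMi, hMp⟩ := exists_lift_cyl 0 i p (fst _ _ ≫ sqF.lift ≫ incl) GA
    (by
      rw [whiskerRight_fst_assoc, whisker_δ_zero, Category.assoc, reassoc_of% sqF.fac_left,
        pullback.lift_fst])
    H
    (by
      rw [Category.assoc, Category.assoc, hw, reassoc_of% sqF.fac_right, whisker_δ_zero,
        Category.assoc, ι₁_comp_assoc, ι₁_contraction, comp_from_assoc]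
      exact (comp_from_assoc _ _).symm)
    hGp
  exact ⟨
    { l := SSet.ι₀ ≫ M
      fac_left := by rw [← ι₀_comp_assoc, hMi, hG0]
      fac_right := by rw [Category.assoc, hMp, ι₀_comp_assoc, ι₀_contraction, Category.comp_id] }⟩

/-- With a fibrant replacement functor preserving pullbacks and fibrations, fibrations which are
weak equivalences lift against monomorphisms. -/
theorem rlp_mono_of_fibration_we (R : SSet.{u} ⥤ SSet.{u}) (η : 𝟭 SSet.{u} ⟶ R)
    [PreservesLimitsOfShape WalkingCospan R] (hKan : ∀ Z, KanComplex (R.obj Z))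
    (hη : ∀ Z, WE (η.app Z))
    (hfib : ∀ {Z Z' : SSet.{u}} (f : Z ⟶ Z'), Fibration f → Fibration (R.map f))
    (p : X ⟶ Y) [Fibration p] (hp : WE p) :
    (MorphismProperty.monomorphisms SSet.{u}).rlp p := by
  have := hKan X
  have := hKan Y
  have := hfib p inferInstance
  have hRp : WE (R.map p) := by
    refine WE.of_comp_left (hη X) ?_
    rw [← η.naturality]
    exact hp.comp (hη Y)
  have hR := rlp_mono_of_we (R.map p) hRp
  rw [rlp_monomorphisms]
  rintro _ _ _ ⟨m⟩
  refine ⟨fun {a b} sq => ⟨?_⟩⟩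
  let p' := pullback.snd p b
  have hp' : Fibration p' := by
    exact fibration_snd p b
  have hp'w : WE p' := by
    have h1 : (MorphismProperty.monomorphisms SSet.{u}).rlp (R.map p') :=
      MorphismProperty.of_isPullback ((IsPullback.of_hasPullback p b).map R) hR
    have h2 := we_of_rlp_mono _ h1
    refine WE.of_comp_right (hη (Δ[m] : SSet.{u})) ?_
    have e : p' ≫ η.app (Δ[m] : SSet.{u}) = η.app _ ≫ R.map p' := η.naturality p'
    rw [e]
    exact (hη _).comp h2
  have := rlp_mono_of_we_stdSimplex p' hp'w ∂Δ[m].ι (MorphismProperty.monomorphisms.infer_property _)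
  have sq' : CommSq (pullback.lift a ∂Δ[m].ι sq.w) ∂Δ[m].ι p' (𝟙 _) :=
    ⟨by rw [Category.comp_id]; exact pullback.lift_snd _ _ _⟩
  exact ⟨
    { l := sq'.lift ≫ pullback.fst p b
      fac_left := by rw [sq'.fac_left_assoc, pullback.lift_fst]
      fac_right := by
        rw [Category.assoc, pullback.condition, sq'.fac_right_assoc, Category.id_comp] }⟩

end

end Vale.Agent.P213.SSetH
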