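import Vale.Agent.P213.Spec
import Vale.Agent.P213.SSet.Fibre

/-!
# P213: weak homotopy equivalences, the interface statements

Two out of three, retracts, homotopy equivalences, pushouts, gluing and transfinite composition,
in the form of `Vale.Agent.P213.Spec`.
-/

universe u

namespace Vale.Agent.P213

open CategoryTheory Limits MonoidalCategory SSet SSetH

noncomputable section

/-- The class of weak homotopy equivalences. -/
theorem SSetH.weq_eq : Spec.weq.{u} = WE.{u} := by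
  ext X Y f
  exact isWeakHomotopyEquiv_iff f

theorem weqBasic : Spec.WeqBasic.{u} := by
  unfold Spec.WeqBasic
  rw [weq_eq]
  exact ⟨inferInstance, inferInstance⟩

theorem SSetH.Htpic.comp_right {X Y Z : SSet.{u}} {f g : X ⟶ Y} (h : Spec.Htpic f g) (k : Y ⟶ Z) :
    Spec.Htpic (f ≫ k) (g ≫ k) := by
  induction h with
  | rel p q h => exact Relation.EqvGen.rel _ _ (((htp_of_homotopy h.some).comp_right k).homotopy)
  | refl p => exact Relation.EqvGen.refl _
  | symm p q _ ih => exact ih.symm _ _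
  | trans p q r _ _ ih ih' => exact ih.trans _ _ _ ih'

theorem weqHomotopyEquiv : Spec.WeqHomotopyEquiv.{u} := fun X Y f g h₁ h₂ => by
  show IsWeakHomotopyEquiv f
  rw [isWeakHomotopyEquiv_iff]
  intro K hK
  refine ⟨fun k => ⟨g ≫ k, ?_⟩, fun h h' hh => ?_⟩
  · have e := eqvGen_iff_htp.1 (SSetH.Htpic.comp_right h₁ k)
    simpa using e
  · have e := hh.comp_left g
    have e1 : Htp (g ≫ f ≫ h) h := by
      simpa using eqvGen_iff_htp.1 (SSetH.Htpic.comp_right h₂ h)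
    have e2 : Htp (g ≫ f ≫ h') h' := by
      simpa using eqvGen_iff_htp.1 (SSetH.Htpic.comp_right h₂ h')
    exact (e1.symm.trans e).trans e2

theorem weqPushout : Spec.WeqPushout.{u} := fun {Z A B Y f g i j} sq hm hf => by
  show IsWeakHomotopyEquiv j
  rw [isWeakHomotopyEquiv_iff]
  exact (MorphismProperty.of_isPushout (P := TrivCof) sq.flip
    ⟨hm, (isWeakHomotopyEquiv_iff f).1 hf⟩).2

/-- Gluing, with the monomorphisms on the same side. -/
theorem SSetH.we_of_cube' {X₀ X₁ X₂ Y₀ Y₁ Y₂ X Y : SSet.{u}} {a₁ : X₀ ⟶ X₁} {a₂ : X₀ ⟶ X₂}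
    {b₁ : X₁ ⟶ X} {b₂ : X₂ ⟶ X} (hX : IsPushout a₁ a₂ b₁ b₂)
    {c₁ : Y₀ ⟶ Y₁} {c₂ : Y₀ ⟶ Y₂} {d₁ : Y₁ ⟶ Y} {d₂ : Y₂ ⟶ Y} (hY : IsPushout c₁ c₂ d₁ d₂)
    [Mono a₂] [Mono c₂] {f₀ : X₀ ⟶ Y₀} {f₁ : X₁ ⟶ Y₁} {f₂ : X₂ ⟶ Y₂} {f : X ⟶ Y}
    (e₁ : a₁ ≫ f₁ = f₀ ≫ c₁) (e₂ : a₂ ≫ f₂ = f₀ ≫ c₂) (g₁ : b₁ ≫ f = f₁ ≫ d₁)
    (g₂ : b₂ ≫ f = f₂ ≫ d₂) (w₀ : WE f₀) (w₁ : WE f₁) (w₂ : WE f₂) : WE f := by
  obtain ⟨X₁', i, p, hi, hp, rfl⟩ := exists_factorization a₁
  obtain ⟨Y₁', j, q, hj, hq, rfl⟩ := exists_factorization c₁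
  have := hi
  have := hj
  have : HasLiftingProperty i q := hq i (MorphismProperty.monomorphisms.infer_property i)
  have sq : CommSq (f₀ ≫ j) i q (p ≫ f₁) := ⟨by rw [Category.assoc, ← e₁, Category.assoc]⟩
  let πX : pushout i a₂ ⟶ X := pushout.desc (p ≫ b₁) b₂ (by rw [← Category.assoc]; exact hX.w)
  let πY : pushout j c₂ ⟶ Y := pushout.desc (q ≫ d₁) d₂ (by rw [← Category.assoc]; exact hY.w)
  have hπX : WE πX := by
    have s : IsPushout p (pushout.inl i a₂) b₁ πX :=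
      IsPushout.of_left (by rw [pushout.inr_desc]; exact hX) (pushout.inl_desc _ _ _).symm
        (IsPushout.of_hasPushout i a₂)
    have := mono_inl (IsPushout.of_hasPushout i a₂)
    exact we_inr s (we_of_rlp_mono p hp)
  have hπY : WE πY := by
    have s : IsPushout q (pushout.inl j c₂) d₁ πY :=
      IsPushout.of_left (by rw [pushout.inr_desc]; exact hY) (pushout.inl_desc _ _ _).symm
        (IsPushout.of_hasPushout j c₂)
    have := mono_inl (IsPushout.of_hasPushout j c₂)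
    exact we_inr s (we_of_rlp_mono q hq)
  have w₁' : WE sq.lift := by
    refine WE.of_comp_right (we_of_rlp_mono q hq) ?_
    rw [sq.fac_right]
    exact (we_of_rlp_mono p hp).comp w₁
  let φ : pushout i a₂ ⟶ pushout j c₂ :=
    pushout.desc (sq.lift ≫ pushout.inl j c₂) (f₂ ≫ pushout.inr j c₂)
      (by rw [sq.fac_left_assoc, reassoc_of% e₂, Category.assoc, pushout.condition])
  have hφ : WE φ := we_of_cube (IsPushout.of_hasPushout i a₂) (IsPushout.of_hasPushout j c₂)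
    sq.fac_left e₂ (pushout.inl_desc _ _ _) (pushout.inr_desc _ _ _) w₀ w₁' w₂
  refine WE.of_comp_left hπX ?_
  have e : πX ≫ f = φ ≫ πY := by
    apply pushout.hom_ext
    · rw [pushout.inl_desc_assoc, pushout.inl_desc_assoc, Category.assoc, g₁,
        Category.assoc, pushout.inl_desc, sq.fac_right_assoc, Category.assoc]
    · rw [pushout.inr_desc_assoc, pushout.inr_desc_assoc, g₂, Category.assoc, pushout.inr_desc]
  rw [e]
  exact hφ.comp hπY

theorem weqGluing : Spec.WeqGluing.{u} := by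
  intro Z A B Y Z' A' B' Y' f g i j f' g' i' j' z a b y sq sq' hf hf' e₁ e₂ e₃ e₄ hz ha hb
  show IsWeakHomotopyEquiv y
  rw [isWeakHomotopyEquiv_iff]
  exact we_of_cube' sq.flip sq'.flip e₂ e₁ e₄ e₃ ((isWeakHomotopyEquiv_iff z).1 hz)
    ((isWeakHomotopyEquiv_iff b).1 hb) ((isWeakHomotopyEquiv_iff a).1 ha)

theorem weqTransfinite : Spec.WeqTransfinite.{u} := by
  unfold Spec.WeqTransfinite
  rw [weq_eq]
  exact inferInstanceAs (MorphismProperty.IsStableUnderTransfiniteComposition.{u} TrivCof.{u})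

end

end Vale.Agent.P213
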