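import Vale.Agent.P213.SSet.Cylinder

/-!
# P213: weak equivalences of chains of monomorphisms pass to the colimit
-/

universe u

namespace Vale.Agent.P213.SSetH

open CategoryTheory MonoidalCategory CartesianMonoidalCategory SSet Simplicial Limits Opposite

noncomputable section

section

variable {K : Type u} [Category.{u} K] {F G : K ⥤ SSet.{u}} (τ : F ⟶ G) {c : Cocone F}
  {c' : Cocone G} (hc : IsColimit c) (hc' : IsColimit c') (l : c.pt ⟶ c'.pt)
  (hl : ∀ k, τ.app k ≫ c'.ι.app k = c.ι.app k ≫ l) {X : SSet.{u}}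

include hc hc'

theorem exists_cyl_desc (L : ∀ k, Cyl (τ.app k) ⟶ X)
    (hL : ∀ k k' (φ : k ⟶ k'),
      cylMap (F.map φ) (G.map φ) (τ.naturality φ).symm ≫ L k' = L k) :
    ∃ L' : Cyl l ⟶ X, ∀ k, cylMap (c.ι.app k) (c'.ι.app k) (hl k) ≫ L' = L k := by
  let sB : Cocone G := Cocone.mk X
    { app := fun k => cylB (τ.app k) ≫ L k
      naturality := fun k k' φ => by
        show G.map φ ≫ cylB (τ.app k') ≫ L k' = (cylB (τ.app k) ≫ L k) ≫ 𝟙 X
        rw [Category.comp_id, ← hL k k' φ, pushout.inl_desc_assoc, Category.assoc] }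
  let sI : Cocone (F ⋙ tensorRight (Δ[1] : SSet.{u})) := Cocone.mk X
    { app := fun k => cylI (τ.app k) ≫ L k
      naturality := fun k k' φ => by
        show F.map φ ▷ _ ≫ cylI (τ.app k') ≫ L k' = (cylI (τ.app k) ≫ L k) ≫ 𝟙 X
        rw [Category.comp_id, ← hL k k' φ, pushout.inr_desc_assoc, Category.assoc] }
  let hI := isColimitOfPreserves (tensorRight (Δ[1] : SSet.{u})) hc
  have eB : ∀ k, c'.ι.app k ≫ hc'.desc sB = cylB (τ.app k) ≫ L k := fun k => hc'.fac sB k
  have eI : ∀ k, c.ι.app k ▷ _ ≫ hI.desc sI = cylI (τ.app k) ≫ L k := fun k => hI.fac sI k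
  refine ⟨pushout.desc (hc'.desc sB) (hI.desc sI) ?_, fun k => ?_⟩
  · refine hc.hom_ext fun k => ?_
    rw [← reassoc_of% (hl k), eB, ← ι₁_comp_assoc, eI, pushout.condition_assoc]
  · apply pushout.hom_ext
    · rw [pushout.inl_desc_assoc, Category.assoc, pushout.inl_desc, eB]
    · rw [pushout.inr_desc_assoc, Category.assoc, pushout.inr_desc, eI]

theorem cyl_hom_ext {L₁ L₂ : Cyl l ⟶ X}
    (h : ∀ k, cylMap (c.ι.app k) (c'.ι.app k) (hl k) ≫ L₁ =
      cylMap (c.ι.app k) (c'.ι.app k) (hl k) ≫ L₂) : L₁ = L₂ := by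
  apply pushout.hom_ext
  · refine hc'.hom_ext fun k => ?_
    have e := cylB (τ.app k) ≫= h k
    rwa [pushout.inl_desc_assoc, pushout.inl_desc_assoc, Category.assoc, Category.assoc] at e
  · refine (isColimitOfPreserves (tensorRight (Δ[1] : SSet.{u})) hc).hom_ext fun k => ?_
    have e := cylI (τ.app k) ≫= h k
    rw [pushout.inr_desc_assoc, pushout.inr_desc_assoc, Category.assoc, Category.assoc] at e
    exact e

end

variable {J : Type u} [LinearOrder J] [SuccOrder J] [OrderBot J] [WellFoundedLT J]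
  {F G : J ⥤ SSet.{u}} {τ : F ⟶ G} {c : Cocone F} {c' : Cocone G} {l : c.pt ⟶ c'.pt}

/-- A lift on the `j`-th cylinder. -/
@[ext]
structure CylLift (hl : ∀ k, τ.app k ≫ c'.ι.app k = c.ι.app k ≫ l) {X Y : SSet.{u}} (p : X ⟶ Y)
    (a : c.pt ⟶ X) (b : Cyl l ⟶ Y) (j : J) where
  map : Cyl (τ.app j) ⟶ X
  w₁ : cf (τ.app j) ≫ map = c.ι.app j ≫ a
  w₂ : map ≫ p = cylMap (c.ι.app j) (c'.ι.app j) (hl j) ≫ b

variable (hl : ∀ k, τ.app k ≫ c'.ι.app k = c.ι.app k ≫ l) {X Y : SSet.{u}} (p : X ⟶ Y)
    (a : c.pt ⟶ X) (b : Cyl l ⟶ Y)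

/-- The projective system of lifts on the cylinders. -/
def liftSystem : Jᵒᵖ ⥤ Type u where
  obj j := CylLift hl p a b j.unop
  map {j j'} φ := TypeCat.ofHom fun L =>
    { map := cylMap (F.map φ.unop) (G.map φ.unop) (τ.naturality φ.unop).symm ≫ L.map
      w₁ := by rw [cf_cylMap_assoc, L.w₁, Cocone.w_assoc]
      w₂ := by
        rw [Category.assoc, L.w₂, reassoc_of% (cylMap_comp (τ.naturality φ.unop).symm (hl _)
          (by rw [Cocone.w, Cocone.w]; exact hl _))]
        congr 1
        exact cylMap_congr (Cocone.w _ _) (Cocone.w _ _) _ _ }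
  map_id j := by
    apply ConcreteCategory.hom_ext
    intro L
    apply CylLift.ext
    show cylMap (F.map (𝟙 _)) (G.map (𝟙 _)) _ ≫ L.map = L.map
    rw [cylMap_id _ _ (F.map_id _) (G.map_id _), Category.id_comp]
  map_comp {j j' j''} φ ψ := by
    apply ConcreteCategory.hom_ext
    intro L
    apply CylLift.ext
    show cylMap (F.map (ψ.unop ≫ φ.unop)) (G.map (ψ.unop ≫ φ.unop)) _ ≫ L.map =
      cylMap (F.map ψ.unop) (G.map ψ.unop) _ ≫ cylMap (F.map φ.unop) (G.map φ.unop) _ ≫ L.map
    rw [reassoc_of% (cylMap_comp (τ.naturality ψ.unop).symm (τ.naturality φ.unop).symm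
      (by rw [← G.map_comp, ← F.map_comp]; exact (τ.naturality _).symm))]
    congr 1
    exact cylMap_congr (F.map_comp _ _) (G.map_comp _ _) _ _

/-- **Chains.** A natural weak equivalence of continuous chains of monomorphisms induces a weak
equivalence of the colimits. -/
theorem we_of_chain [F.IsWellOrderContinuous] [G.IsWellOrderContinuous]
    (hmono : ∀ i j (f : i ⟶ j), Mono (F.map f) ∧ Mono (G.map f)) (hτ : ∀ j, WE (τ.app j))
    (hc : IsColimit c) (hc' : IsColimit c') (hl : ∀ k, τ.app k ≫ c'.ι.app k = c.ι.app k ≫ l) :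
    WE l := by
  have hm := mono_cf l
  suffices h : RestrMaps.llp (cf l) by
    have e : cf l ≫ pushout.desc (𝟙 _) (fst _ _ ≫ l)
        (by rw [Category.comp_id, ← Category.assoc, SSet.ι₁_fst, Category.id_comp]) = l := by
      rw [Category.assoc, pushout.inr_desc, ← Category.assoc, SSet.ι₀_fst, Category.id_comp]
    rw [← e]
    exact (we_of_llp h).comp
      (WE.of_comp_left (we_cylB l) (by rw [pushout.inl_desc]; exact we_of_isIso _))
  intro X Y p hp
  refine ⟨fun {a b} sq => ?_⟩
  have hcf : ∀ j, HasLiftingProperty (cf (τ.app j)) p := fun j => by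
    have := mono_cf (τ.app j)
    exact (llp_restrMaps_iff_we _).2 (we_cf (hτ j)) _ hp
  have d : (liftSystem hl p a b).WellOrderInductionData := by
    refine Functor.WellOrderInductionData.ofExists (fun j hj L => ?_) fun j hj x => ?_
    · let φ := homOfLE (Order.le_succ j)
      have := (hmono _ _ φ).1
      have := (hmono _ _ φ).2
      have := mono_cf (τ.app j)
      have sqP := IsPushout.of_hasPushout (cf (τ.app j)) (F.map φ)
      let k : pushout (cf (τ.app j)) (F.map φ) ⟶ Cyl (τ.app (Order.succ j)) :=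
        pushout.desc (cylMap (F.map φ) (G.map φ) (τ.naturality φ).symm) (cf _) (cf_cylMap _ _ _)
      have hk : Mono k :=
        mono_step _ _ _ sqP k (pushout.inl_desc _ _ _) (pushout.inr_desc _ _ _)
      have hkw : WE k := by
        refine WE.of_comp_left (f := pushout.inr (cf (τ.app j)) (F.map φ)) ?_ ?_
        · exact (MorphismProperty.of_isPushout (P := TrivCof) sqP.flip
            ⟨MorphismProperty.monomorphisms.infer_property _, we_cf (hτ j)⟩).2
        · rw [pushout.inr_desc]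
          exact we_cf (hτ _)
      have : HasLiftingProperty k p := (llp_restrMaps_iff_we k).2 hkw _ hp
      have sq' : CommSq (pushout.desc L.map (c.ι.app _ ≫ a)
          (by rw [L.w₁, Cocone.w_assoc])) k p
          (cylMap (c.ι.app (Order.succ j)) (c'.ι.app _) (hl _) ≫ b) := ⟨by
        apply pushout.hom_ext
        · rw [pushout.inl_desc_assoc, pushout.inl_desc_assoc, L.w₂,
            reassoc_of% (cylMap_comp (τ.naturality φ).symm (hl _)
              (by rw [Cocone.w, Cocone.w]; exact hl _))]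
          congr 1
          exact cylMap_congr (Cocone.w _ _).symm (Cocone.w _ _).symm _ _
        · rw [pushout.inr_desc_assoc, pushout.inr_desc_assoc, Category.assoc, sq.w,
            ← cf_cylMap_assoc (c.ι.app (Order.succ j)) (c'.ι.app _) (hl _)]⟩
      refine ⟨⟨sq'.lift, ?_, sq'.fac_right⟩, ?_⟩
      · have e := pushout.inr _ _ ≫= sq'.fac_left
        rwa [pushout.inr_desc_assoc, pushout.inr_desc] at e
      · apply CylLift.ext
        have e := pushout.inl _ _ ≫= sq'.fac_left
        rwa [pushout.inl_desc_assoc, pushout.inl_desc] at e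
    · let P := OrderHom.Subtype.val (· ∈ Set.Iio j)
      have hjF := F.isColimitOfIsWellOrderContinuous j hj
      have hjG := G.isColimitOfIsWellOrderContinuous j hj
      obtain ⟨L, hL⟩ := exists_cyl_desc (Functor.whiskerLeft _ τ) hjF hjG (τ.app j)
        (fun i => (τ.naturality _).symm) (fun i => (x.val (op i)).map)
        (fun i i' φ => congrArg CylLift.map (x.property φ.op))
      refine ⟨⟨L, ?_, ?_⟩, fun i hi => CylLift.ext (hL ⟨i, hi⟩)⟩
      · refine hjF.hom_ext fun i => ?_
        have e := cf_cylMap_assoc (F.map (homOfLE (le_of_lt i.2))) (G.map (homOfLE (le_of_lt i.2)))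
          (τ.naturality _).symm L
        refine e.symm.trans ((cf (τ.app i.1) ≫= hL i).trans ((x.val (op i)).w₁.trans ?_))
        exact ((c.w (homOfLE (le_of_lt i.2))).symm =≫ a).trans (Category.assoc _ _ _)
      · refine cyl_hom_ext (Functor.whiskerLeft _ τ) hjF hjG (τ.app j)
          (fun i => (τ.naturality _).symm) fun i => ?_
        refine (Category.assoc _ _ _).symm.trans
          ((hL i =≫ p).trans ((x.val (op i)).w₂.trans ?_))
        refine (congrArg (· ≫ b) ?_).trans (Category.assoc _ _ _)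
        refine (cylMap_congr (c.w (homOfLE (le_of_lt i.2))).symm (c'.w (homOfLE (le_of_lt i.2))).symm
          _ ?_).trans (cylMap_comp _ (hl j) ?_).symm
        all_goals
          rw [Cocone.w, Cocone.w]
          exact hl _
  have := hcf ⊥
  have sq₀ : CommSq (c.ι.app ⊥ ≫ a) (cf (τ.app ⊥)) p
      (cylMap (c.ι.app ⊥) (c'.ι.app ⊥) (hl ⊥) ≫ b) := ⟨by
    rw [Category.assoc, sq.w, ← cf_cylMap_assoc (c.ι.app ⊥) (c'.ι.app ⊥) (hl ⊥)]⟩
  obtain ⟨s, -⟩ := d.surjective ⟨sq₀.lift, sq₀.fac_left, sq₀.fac_right⟩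
  obtain ⟨L, hL⟩ := exists_cyl_desc τ hc hc' l hl (fun j => (s.val (op j)).map)
    (fun i i' φ => congrArg CylLift.map (s.property φ.op))
  refine ⟨⟨⟨L, ?_, ?_⟩⟩⟩
  · refine hc.hom_ext fun j => ?_
    rw [← cf_cylMap_assoc (c.ι.app j) (c'.ι.app j) (hl j), hL, (s.val (op j)).w₁]
  · refine cyl_hom_ext τ hc hc' l hl fun j => ?_
    rw [reassoc_of% (hL j)]
    exact (s.val (op j)).w₂

end

end Vale.Agent.P213.SSetH

namespace Vale.Agent.P213

open CategoryTheory Limits SSetH

theorem weqChain : Spec.WeqChain.{u} := by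
  intro J _ _ _ _ F G _ _ hmono τ hτ c c' hc hc' l hl
  show IsWeakHomotopyEquiv l
  rw [isWeakHomotopyEquiv_iff]
  exact we_of_chain hmono (fun j => (isWeakHomotopyEquiv_iff _).1 (hτ j)) hc hc'
    fun j => (hl j).symm

end Vale.Agent.P213
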