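import Vale.Agent.P213.SSet.SpecBasic

/-!
# P213: mapping cylinders of maps of simplicial sets
-/

universe u

namespace Vale.Agent.P213.SSetH

open CategoryTheory MonoidalCategory CartesianMonoidalCategory SSet Simplicial Limits Opposite

noncomputable section

variable {A B A' B' : SSet.{u}}

instance (X : SSet.{u}) : Mono (SSet.ι₁ : X ⟶ X ⊗ Δ[1]) := mono_of_mono_fac (SSet.ι₁_fst X)

theorem anodyne_ι₁ (X : SSet.{u}) : anodyneExtensions (SSet.ι₁ : X ⟶ X ⊗ Δ[1]) := by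
  have h := (anodyne_δ.{u} 0).whiskerLeft X
  rw [whisker_δ_zero] at h
  exact (anodyneExtensions.cancel_left_of_respectsIso (ptIso X).hom _).1 h

/-- The mapping cylinder. -/
abbrev Cyl (f : A ⟶ B) : SSet.{u} := pushout f (SSet.ι₁ : A ⟶ A ⊗ Δ[1])

/-- The base of the cylinder. -/
abbrev cylB (f : A ⟶ B) : B ⟶ Cyl f := pushout.inl f SSet.ι₁

/-- The body of the cylinder. -/
abbrev cylI (f : A ⟶ B) : A ⊗ Δ[1] ⟶ Cyl f := pushout.inr f SSet.ι₁

/-- The free end of the cylinder. -/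
abbrev cf (f : A ⟶ B) : A ⟶ Cyl f := SSet.ι₀ ≫ cylI f

/-- Functoriality. -/
abbrev cylMap {f : A ⟶ B} {f' : A' ⟶ B'} (a : A ⟶ A') (b : B ⟶ B') (w : f ≫ b = a ≫ f') :
    Cyl f ⟶ Cyl f' :=
  pushout.desc (b ≫ cylB f') (a ▷ _ ≫ cylI f')
    (by rw [reassoc_of% w, pushout.condition, ι₁_comp_assoc])

theorem cf_cylMap {f : A ⟶ B} {f' : A' ⟶ B'} (a : A ⟶ A') (b : B ⟶ B') (w : f ≫ b = a ≫ f') :
    cf f ≫ cylMap a b w = a ≫ cf f' := by
  rw [Category.assoc, pushout.inr_desc, ι₀_comp_assoc]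

theorem cf_cylMap_assoc {f : A ⟶ B} {f' : A' ⟶ B'} (a : A ⟶ A') (b : B ⟶ B')
    (w : f ≫ b = a ≫ f') {Z : SSet.{u}} (h : Cyl f' ⟶ Z) :
    cf f ≫ cylMap a b w ≫ h = a ≫ cf f' ≫ h := by
  rw [← Category.assoc, cf_cylMap, Category.assoc]

theorem cylMap_comp {A'' B'' : SSet.{u}} {f : A ⟶ B} {f' : A' ⟶ B'} {f'' : A'' ⟶ B''}
    {a : A ⟶ A'} {b : B ⟶ B'} {a' : A' ⟶ A''} {b' : B' ⟶ B''} (w : f ≫ b = a ≫ f')
    (w' : f' ≫ b' = a' ≫ f'') (w'' : f ≫ b ≫ b' = (a ≫ a') ≫ f'') :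
    cylMap a b w ≫ cylMap a' b' w' = cylMap (a ≫ a') (b ≫ b') w'' := by
  apply pushout.hom_ext
  · rw [pushout.inl_desc_assoc, Category.assoc, pushout.inl_desc, pushout.inl_desc,
      Category.assoc]
  · rw [pushout.inr_desc_assoc, Category.assoc, pushout.inr_desc, pushout.inr_desc,
      comp_whiskerRight, Category.assoc]

theorem cylMap_congr {f : A ⟶ B} {f' : A' ⟶ B'} {a₁ a₂ : A ⟶ A'} {b₁ b₂ : B ⟶ B'} (ha : a₁ = a₂)
    (hb : b₁ = b₂) (w : f ≫ b₁ = a₁ ≫ f') (w' : f ≫ b₂ = a₂ ≫ f') :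
    cylMap a₁ b₁ w = cylMap a₂ b₂ w' := by
  subst ha hb; rfl

theorem cylMap_id {f : A ⟶ B} (a : A ⟶ A) (b : B ⟶ B) (ha : a = 𝟙 A) (hb : b = 𝟙 B)
    (w : f ≫ b = a ≫ f) : cylMap a b w = 𝟙 _ := by
  subst ha hb
  apply pushout.hom_ext
  · rw [pushout.inl_desc, Category.id_comp, Category.comp_id]
  · rw [pushout.inr_desc, id_whiskerRight, Category.id_comp, Category.comp_id]

theorem we_cylB (f : A ⟶ B) : WE (cylB f) :=
  (MorphismProperty.of_isPushout (P := TrivCof) (IsPushout.of_hasPushout f SSet.ι₁)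
    ⟨MorphismProperty.monomorphisms.infer_property _, we_of_anodyne (anodyne_ι₁ A)⟩).2

theorem we_cf {f : A ⟶ B} (hf : WE f) : WE (cf f) := by
  let pr : Cyl f ⟶ B := pushout.desc (𝟙 _) (fst _ _ ≫ f)
    (by rw [Category.comp_id, ← Category.assoc, SSet.ι₁_fst, Category.id_comp])
  have hpr : WE pr := WE.of_comp_left (we_cylB f) (by rw [pushout.inl_desc]; exact we_of_isIso _)
  refine WE.of_comp_right hpr ?_
  rw [Category.assoc, pushout.inr_desc, ← Category.assoc, SSet.ι₀_fst, Category.id_comp]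
  exact hf

/-- The endpoints of the interval. -/
abbrev endpt (k : Fin 2) (m : SimplexCategoryᵒᵖ) : (Δ[1] : SSet.{u}).obj m :=
  stdSimplex.const 1 k m

theorem ι₀_app (m : SimplexCategoryᵒᵖ) (x : A.obj m) :
    (SSet.ι₀ : A ⟶ A ⊗ Δ[1]).app m x = (x, endpt 0 m) := rfl

theorem ι₁_app (m : SimplexCategoryᵒᵖ) (x : A.obj m) :
    (SSet.ι₁ : A ⟶ A ⊗ Δ[1]).app m x = (x, endpt 1 m) := rfl

theorem endpt_ne (m : SimplexCategoryᵒᵖ) : endpt.{u} 0 m ≠ endpt 1 m := fun h => by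
  have h2 : (0 : Fin 2) = 1 := congrArg (fun z : (Δ[1] : SSet.{u}).obj m => z.down.toOrderHom 0) h
  simp at h2

variable (f : A ⟶ B) (m : SimplexCategoryᵒᵖ)

theorem isPushout_cyl_app : IsPushout (f.app m) ((SSet.ι₁ : A ⟶ A ⊗ Δ[1]).app m)
    ((cylB f).app m) ((cylI f).app m) :=
  (IsPushout.of_hasPushout f SSet.ι₁).map ((evaluation _ _).obj m)

theorem cylB_injective : Function.Injective ((cylB f).app m) :=
  Types.pushoutCocone_inr_injective_of_isColimit (isPushout_cyl_app f m).flip.isColimit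
    fun _ _ h => congrArg Prod.fst h

theorem cyl_cases (z : (Cyl f).obj m) :
    (∃ b, (cylB f).app m b = z) ∨
      ∃ x : (A ⊗ Δ[1]).obj m, x.2 ≠ endpt 1 m ∧ (cylI f).app m x = z := by
  obtain h | ⟨x, hx, hn⟩ := Types.eq_or_eq_of_isPushout' (isPushout_cyl_app f m) z
  · exact Or.inl h
  · exact Or.inr ⟨x, fun h => hn ⟨x.1, Prod.ext rfl h.symm⟩, hx⟩

theorem exists_retr : ∃ r : (Cyl f).obj m → Option ((A ⊗ Δ[1]).obj m),
    (∀ b, r ((cylB f).app m b) = none) ∧
      ∀ x, x.2 ≠ endpt 1 m → r ((cylI f).app m x) = some x := by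
  classical
  let g : (A ⊗ Δ[1]).obj m → Option ((A ⊗ Δ[1]).obj m) := fun x =>
    if x.2 = endpt 1 m then none else some x
  let r := (isPushout_cyl_app f m).desc (TypeCat.ofHom fun _ => none) (TypeCat.ofHom g)
    (ConcreteCategory.hom_ext _ _ fun x =>
      (if_pos (show ((x, endpt 1 m) : (A ⊗ Δ[1]).obj m).2 = endpt 1 m from rfl)).symm)
  refine ⟨r, fun b => ConcreteCategory.congr_hom ((isPushout_cyl_app f m).inl_desc _ _ _) b,
    fun x hx => ?_⟩
  have e : r ((cylI f).app m x) = g x :=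
    ConcreteCategory.congr_hom ((isPushout_cyl_app f m).inr_desc _ _ _) x
  exact e.trans (if_neg hx)

theorem cylI_ne_cylB {x : (A ⊗ Δ[1]).obj m} (hx : x.2 ≠ endpt 1 m) (b : B.obj m) :
    (cylI f).app m x ≠ (cylB f).app m b := fun h => by
  obtain ⟨r, h1, h2⟩ := exists_retr f m
  have := congrArg r h
  rw [h1, h2 x hx] at this
  simp at this

theorem cylI_inj {x y : (A ⊗ Δ[1]).obj m} (hx : x.2 ≠ endpt 1 m) (hy : y.2 ≠ endpt 1 m)
    (h : (cylI f).app m x = (cylI f).app m y) : x = y := by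
  obtain ⟨r, -, h2⟩ := exists_retr f m
  have := congrArg r h
  rwa [h2 x hx, h2 y hy, Option.some_inj] at this

theorem mono_cf : Mono (cf f) := by
  rw [NatTrans.mono_iff_mono_app]
  intro k
  rw [mono_iff_injective]
  intro x y h
  exact congrArg Prod.fst (cylI_inj f k (endpt_ne k) (endpt_ne k) h)

variable {f} {f' : A' ⟶ B'}

/-- The step map from a cylinder to the next one is a monomorphism. -/
theorem mono_step (a : A ⟶ A') (b : B ⟶ B') (w : f ≫ b = a ≫ f') [Mono a] [Mono b]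
    {P : SSet.{u}} {r : Cyl f ⟶ P} {s : A' ⟶ P} (h : IsPushout (cf f) a r s) (k : P ⟶ Cyl f')
    (hr : r ≫ k = cylMap a b w) (hs : s ≫ k = cf f') : Mono k := by
  rw [NatTrans.mono_iff_mono_app]
  intro m
  have ha : Function.Injective (a.app m) := (mono_iff_injective _).1 inferInstance
  have hb : Function.Injective (b.app m) := (mono_iff_injective _).1 inferInstance
  have cB : ∀ v, (cylMap a b w).app m ((cylB f).app m v) = (cylB f').app m (b.app m v) :=
    fun v => ConcreteCategory.congr_hom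
      (congr_app (pushout.inl_desc (f := f) (g := SSet.ι₁) (b ≫ cylB f') _ _) m) v
  have cI : ∀ v, (cylMap a b w).app m ((cylI f).app m v) =
      (cylI f').app m ((a.app m v.1, v.2) : (A' ⊗ Δ[1]).obj m) :=
    fun v => ConcreteCategory.congr_hom
      (congr_app (pushout.inr_desc (f := f) (g := SSet.ι₁) _ (a ▷ _ ≫ cylI f') _) m) v
  have hinj : Function.Injective ((cylMap a b w).app m) := by
    intro u v huv
    obtain ⟨u, rfl⟩ | ⟨u, hu, rfl⟩ := cyl_cases f m u <;>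
      obtain ⟨v, rfl⟩ | ⟨v, hv, rfl⟩ := cyl_cases f m v
    · rw [cB, cB] at huv
      rw [hb (cylB_injective f' m huv)]
    · rw [cB, cI] at huv
      exact absurd huv.symm (cylI_ne_cylB f' m (by exact hv) _)
    · rw [cB, cI] at huv
      exact absurd huv (cylI_ne_cylB f' m (by exact hu) _)
    · rw [cI, cI] at huv
      have e := cylI_inj f' m (by exact hu) (by exact hv) huv
      rw [show u = v from Prod.ext (ha (congrArg Prod.fst e :)) (congrArg Prod.snd e :)]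
  have := (mono_iff_injective ((cylMap a b w).app m)).2 hinj
  refine Types.mono_of_isPushout_of_isPullback (r' := (cylMap a b w).app m)
    (b' := (cf f').app m) (h.map ((evaluation _ _).obj m)) ?_ (congr_app hr m) (congr_app hs m)
    fun x y _ _ e => congrArg Prod.fst (cylI_inj f' m (endpt_ne m) (endpt_ne m) e)
  rw [Types.isPullback_iff]
  refine ⟨congr_app (cf_cylMap a b w) m, fun x y e => ha e.2, fun u x e => ?_⟩
  obtain ⟨u, rfl⟩ | ⟨u, hu, rfl⟩ := cyl_cases f m u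
  · exact absurd ((cB u).symm.trans e).symm (cylI_ne_cylB f' m (endpt_ne m) _)
  · have e' := cylI_inj f' m (by exact hu) (endpt_ne m) ((cI u).symm.trans e)
    refine ⟨u.1, ?_, congrArg Prod.fst e'⟩
    show (cylI f).app m (u.1, endpt 0 m) = _
    rw [show u = (u.1, endpt 0 m) from Prod.ext rfl (congrArg Prod.snd e' :)]

end

end Vale.Agent.P213.SSetH
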