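import Vale.Agent.P213.SSet.SpecBasic

/-!
# P213: comparable monotone maps have homotopic nerves
-/

universe u

namespace Vale.Agent.P213

open CategoryTheory MonoidalCategory CartesianMonoidalCategory SSet SSetH Simplicial Opposite

noncomputable section

variable {P Q : Type u} [PartialOrder P] [PartialOrder Q]

/-- The homotopy between the nerves of `f ≤ g`. -/
def nerveHtpMap (f g : P → Q) (hf : Monotone f) (hg : Monotone g) (h : ∀ p, f p ≤ g p) :
    nerve P ⊗ (Δ[1] : SSet.{u}) ⟶ nerve Q where
  app m := TypeCat.ofHom fun z => Monotone.functor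
    (f := fun i => if stdSimplex.asOrderHom (z.2 : Δ[1].obj m) i = 0 then
      f ((z.1 : (nerve P).obj m).obj i) else g ((z.1 : (nerve P).obj m).obj i))
    (fun i j hij => by
      have h2 := (stdSimplex.asOrderHom (z.2 : Δ[1].obj m)).monotone hij
      have h1 : (z.1 : (nerve P).obj m).obj i ≤ (z.1 : (nerve P).obj m).obj j :=
        leOfHom ((z.1 : (nerve P).obj m).map (homOfLE hij))
      dsimp only
      split_ifs with a c c
      · exact hf h1
      · exact (hf h1).trans (h _)
      · rw [c] at h2
        exact absurd (le_antisymm h2 (Fin.zero_le _)) a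
      · exact hg h1)
  naturality m m' e := by
    ext z i
    rfl

/-- Comparable monotone maps have homotopic nerves. -/
theorem htp_nerveMap (f g : P → Q) (hf : Monotone f) (hg : Monotone g) (h : ∀ p, f p ≤ g p) :
    Htp (nerveMap hf.functor) (nerveMap hg.functor) := by
  refine ⟨nerveHtpMap f g hf hg h, ?_, ?_⟩ <;>
  · ext m σ i
    rfl

theorem nerveHomotopy : Spec.NerveHomotopy.{u} := fun _ _ _ _ f g hf hg h =>
  Relation.EqvGen.rel _ _ (htp_nerveMap f g hf hg h).homotopy

end

end Vale.Agent.P213
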