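import Vale.Agent.P213.SSet.SdChains
import Vale.Agent.P213.SSet.NerveHomotopy

/-!
# P213: twice subdivided boundaries and horns are nerves of posets of flags (helper5)
-/

universe u

namespace Vale.Agent.P213

open CategoryTheory CategoryTheory.Limits Simplicial Opposite PartialOrder SdNerve

noncomputable section

namespace SdNerve

variable {P Q : Type u} [PartialOrder P] [PartialOrder Q]

open Classical in
/-- The standard simplex as a simplicial set of chains. -/
def simplexChainy (m : ℕ) :
    Chainy (Δ[m] : SSet.{u}) (fun _ : Finset (ULift.{u} (Fin (m + 1))) => True) where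
  v x := ⟨fun i => ULift.up (SSet.stdSimplex.asOrderHom x i),
    fun _ _ h => (SSet.stdSimplex.asOrderHom x).monotone h⟩
  nat _ _ _ := rfl
  inj := fun {_} _ _ h => SSet.stdSimplex.objEquiv.injective (SimplexCategory.Hom.ext _ _
    (OrderHom.ext _ _ (funext fun i => congrArg ULift.down (DFunLike.congr_fun h i))))
  mem _ := trivial
  surj f _ := ⟨SSet.stdSimplex.objMk ⟨fun i => (f i).down, fun _ _ h => f.monotone h⟩,
    OrderHom.ext _ _ rfl⟩
  down _ _ _ _ _ := trivial

open Classical in
/-- A subcomplex cut out by a smaller class of chains. -/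
def Chainy.sub {X : SSet.{u}} {H H' : Finset P → Prop} (C : Chainy X H) (A : X.Subcomplex)
    (hle : ∀ s, H' s → H s) (hdown : ∀ s t : Finset P, t ⊆ s → t.Nonempty → H' s → H' t)
    (hiff : ∀ {Δ : SimplexCategory} (x : X.obj (op Δ)),
      x ∈ A.obj (op Δ) ↔ H' (Finset.univ.image (C.v x))) : Chainy A.toSSet H' where
  v x := C.v x.1
  nat f x i := C.nat f x.1 i
  inj := fun {_} _ _ h => Subtype.ext (C.inj h)
  mem x := (hiff x.1).1 x.2
  surj f hf := by
    obtain ⟨x, rfl⟩ := C.surj f (hle _ hf)
    exact ⟨⟨x, (hiff x).2 hf⟩, rfl⟩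
  down := hdown

open Classical in
/-- The subdivision is again a simplicial set of chains. -/
def Chainy.sdChainy {X : SSet.{u}} {H : Finset P → Prop} (C : Chainy X H) :
    Chainy (SSet.sd.obj X)
      (fun S : Finset (NonemptyFiniteChains P) => ∀ s ∈ S, H s.finset) where
  v {Δ} z := ⟨fun i => ((C.Φ.app (op Δ) z).obj i).1,
    fun _ _ h => simplex_mono (C.Φ.app (op Δ) z) h⟩
  nat f z i := by
    show ((C.Φ.app _ ((SSet.sd.obj X).map f.op z)).obj i).1 = _
    rw [NatTrans.naturality_apply C.Φ f.op z]
    rfl
  inj := fun {Δ} x y h => (C.Φ_bijective (op Δ)).1 (nerve.ext_of_isThin (C := Chains H)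
    (funext fun i => Subtype.ext (DFunLike.congr_fun h i)))
  mem z := fun s hs => by
    obtain ⟨i, -, rfl⟩ := Finset.mem_image.1 hs
    exact ((C.Φ.app _ z).obj i).2
  surj {Δ} f hf := by
    obtain ⟨z, hz⟩ := (C.Φ_bijective (op Δ)).2 (simp' (k := op Δ) (fun i : Fin (Δ.len + 1) =>
      (⟨f i, hf _ (Finset.mem_image.2 ⟨i, Finset.mem_univ _, rfl⟩)⟩ : Chains H))
      fun a b h => f.monotone h)
    refine ⟨z, OrderHom.ext _ _ (funext fun i => ?_)⟩
    show ((C.Φ.app (op Δ) z).obj i).1 = _
    rw [hz]
    rfl
  down _ _ h _ hs := fun s hst => hs s (h hst)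

/-- Mutually inverse monotone maps give isomorphic nerves. -/
def nerveIso (f : P → Q) (g : Q → P) (hf : Monotone f) (hg : Monotone g)
    (hfg : ∀ x, g (f x) = x) (hgf : ∀ y, f (g y) = y) : nerve P ≅ nerve Q where
  hom := nerveMap hf.functor
  inv := nerveMap hg.functor
  hom_inv_id := by
    apply NatTrans.ext
    funext k
    exact ConcreteCategory.hom_ext _ _ fun y =>
      nerve.ext_of_isThin (C := P) (funext fun i => hfg (y.obj i))
  inv_hom_id := by
    apply NatTrans.ext
    funext k
    exact ConcreteCategory.hom_ext _ _ fun y =>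
      nerve.ext_of_isThin (C := Q) (funext fun i => hgf (y.obj i))

/-- The twice subdivided inclusion of a subcomplex of a simplex. -/
theorem sdsd_arrow (m : ℕ) (A : (Δ[m] : SSet.{u}).Subcomplex)
    {H : Finset (ULift.{u} (Fin (m + 1))) → Prop} (CA : Chainy A.toSSet H)
    (hv : ∀ {Δ : SimplexCategory} (x : A.toSSet.obj (op Δ)),
      (simplexChainy.{u} m).v x.1 = CA.v x) :
    Nonempty (CategoryTheory.Arrow.mk (SSet.sd.map (SSet.sd.map A.ι)) ≅
      CategoryTheory.Arrow.mk (Spec.flagIncl.{u} m fun s => H s.finset)) := by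
  have h1 := CA.Φ_naturality (simplexChainy.{u} m) A.ι (fun _ _ => trivial) (fun x => hv x)
  have h2 := CA.sdChainy.Φ_naturality (simplexChainy.{u} m).sdChainy (SSet.sd.map A.ι)
    (fun _ _ _ _ => trivial) (fun {Δ} z => OrderHom.ext _ _ (funext fun i => by
      have e := ConcreteCategory.congr_hom (congr_app h1 (op Δ)) z
      exact congrArg (fun w : (nerve (Chains (fun _ : Finset (ULift.{u} (Fin (m + 1))) => True))).obj
        (op Δ) => (w.obj i).1) e))
  refine ⟨Arrow.isoMk CA.sdChainy.iso ((simplexChainy.{u} m).sdChainy.iso ≪≫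
    nerveIso (fun c => c.1) (fun c => ⟨c, fun _ _ => trivial⟩) (fun _ _ h => h) (fun _ _ h => h)
      (fun _ => rfl) (fun _ => rfl)) ?_⟩
  show CA.sdChainy.Φ ≫ Spec.flagIncl m (fun s => H s.finset) =
    SSet.sd.map (SSet.sd.map A.ι) ≫ (simplexChainy.{u} m).sdChainy.Φ ≫ _
  rw [reassoc_of% h2]
  congr 1

/-! ### Contractibility -/

/-- The map of nerves of chains given by a monotone map. -/
def chainImg (f : Q →o Q) : nerve (NonemptyFiniteChains Q) ⟶ nerve (NonemptyFiniteChains Q) :=
  nerveMap (NonemptyFiniteChains.orderHomMap f).monotone.functor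

open Classical in
/-- Changing one value upwards does not change the homotopy class on chains. -/
theorem htpic_step (f g : Q →o Q) (x : Q) (hx : f x ≤ g x) (hne : ∀ y, y ≠ x → f y = g y) :
    Spec.Htpic (chainImg f) (chainImg g) := by
  have hcomp : ∀ (c : NonemptyFiniteChains Q) a b, a ∈ c.finset → b ∈ c.finset →
      f a ≤ g b ∨ g b ≤ f a := by
    intro c a b ha hb
    rcases eq_or_ne a x with rfl | hax
    · rcases eq_or_ne b a with rfl | hba
      · exact .inl hx
      · rw [← hne b hba]
        exact (c.comparable ⟨a, ha⟩ ⟨b, hb⟩).imp (fun h => f.monotone h) fun h => f.monotone h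
    · rw [hne a hax]
      exact (c.comparable ⟨a, ha⟩ ⟨b, hb⟩).imp (fun h => g.monotone h) fun h => g.monotone h
  let U : NonemptyFiniteChains Q → NonemptyFiniteChains Q := fun c =>
    { finset := (c.map f).finset ∪ (c.map g).finset
      nonempty := (c.map f).nonempty.mono Finset.subset_union_left
      comparable := by
        rintro ⟨p, hp⟩ ⟨q, hq⟩
        simp only [Finset.mem_union, NonemptyFiniteChains.mem_map_iff] at hp hq
        rcases hp with ⟨a, ha, rfl⟩ | ⟨a, ha, rfl⟩ <;> rcases hq with ⟨b, hb, rfl⟩ | ⟨b, hb, rfl⟩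
        · exact (c.comparable ⟨a, ha⟩ ⟨b, hb⟩).imp (fun h => f.monotone h) fun h => f.monotone h
        · exact hcomp c a b ha hb
        · exact (hcomp c b a hb ha).symm
        · exact (c.comparable ⟨a, ha⟩ ⟨b, hb⟩).imp (fun h => g.monotone h) fun h => g.monotone h }
  have hU : Monotone U := fun c c' h => Finset.union_subset_union
    ((NonemptyFiniteChains.orderHomMap f).monotone h)
    ((NonemptyFiniteChains.orderHomMap g).monotone h)
  have h1 : Spec.Htpic (chainImg f) (nerveMap hU.functor) :=
    nerveHomotopy _ _ _ U (NonemptyFiniteChains.orderHomMap f).monotone hU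
      fun c => Finset.subset_union_left
  have h2 : Spec.Htpic (chainImg g) (nerveMap hU.functor) :=
    nerveHomotopy _ _ _ U (NonemptyFiniteChains.orderHomMap g).monotone hU
      fun c => Finset.subset_union_right
  exact h1.trans _ _ _ (h2.symm _ _)

open Classical in
/-- Comparable monotone maps of a finite poset are homotopic on chains. -/
theorem htpic_of_le [Finite Q] (f g : Q →o Q) (h : ∀ x, f x ≤ g x) :
    Spec.Htpic (chainImg f) (chainImg g) := by
  have : Fintype Q := Fintype.ofFinite Q
  induction hd : (Finset.univ.filter fun x => f x ≠ g x).card using Nat.strong_induction_on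
    generalizing f with
  | _ d ih =>
    subst hd
    rcases (Finset.univ.filter fun x => f x ≠ g x).eq_empty_or_nonempty with he | hne
    · have : f = g := OrderHom.ext _ _ (funext fun x => by
        simpa using Finset.filter_eq_empty_iff.1 he (Finset.mem_univ x))
      rw [this]
      exact Relation.EqvGen.refl _
    obtain ⟨x, hx⟩ := Finset.exists_maximal hne
    have hxne : f x ≠ g x := by simpa using hx.1
    have habove : ∀ y, x < y → f y = g y := fun y hy => by
      by_contra hc
      exact hy.not_ge (hx.2 (Finset.mem_filter.2 ⟨Finset.mem_univ _, hc⟩) hy.le)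
    let f' : Q →o Q := ⟨Function.update f x (g x), fun a b hab => by
      rcases eq_or_ne a x with rfl | hax
      · rcases eq_or_ne b a with rfl | hba
        · exact le_rfl
        · rw [Function.update_self, Function.update_of_ne hba,
            habove b (lt_of_le_of_ne hab hba.symm)]
          exact g.monotone hab
      · rw [Function.update_of_ne hax]
        rcases eq_or_ne b x with rfl | hbx
        · rw [Function.update_self]; exact (f.monotone hab).trans (h b)
        · rw [Function.update_of_ne hbx]; exact f.monotone hab⟩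
    have hstep : Spec.Htpic (chainImg f) (chainImg f') := htpic_step f f' x
      (by show f x ≤ Function.update f x (g x) x; rw [Function.update_self]; exact h x)
      fun y hy => (Function.update_of_ne hy (g x) f).symm
    refine hstep.trans _ _ _ (ih _ ?_ f' (fun y => ?_) rfl)
    · refine Finset.card_lt_card (Finset.ssubset_iff_of_subset ?_ |>.2 ⟨x, ?_, ?_⟩)
      · intro y hy
        simp only [Finset.mem_filter, Finset.mem_univ, true_and] at hy ⊢
        rcases eq_or_ne y x with rfl | hyx
        · exact absurd (Function.update_self (f := f) y (g y)) hy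
        · intro e
          exact hy ((Function.update_of_ne hyx (g x) f).trans e)
      · exact Finset.mem_filter.2 ⟨Finset.mem_univ _, hxne⟩
      · simp only [Finset.mem_filter, Finset.mem_univ, true_and, ne_eq, not_not]
        exact Function.update_self (f := f) x (g x)
    · show Function.update f x (g x) y ≤ g y
      rcases eq_or_ne y x with rfl | hyx
      · rw [Function.update_self]
      · rw [Function.update_of_ne hyx]; exact h y

/-- A finite poset with `id ≤ a ≥ const` has a weakly contractible nerve of chains. -/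
theorem weq_chains [Finite Q] (a : Q →o Q) (q₀ : Q) (h1 : ∀ x, x ≤ a x) (h2 : ∀ x, q₀ ≤ a x) :
    Spec.weq.{u} (terminal.from (nerve (NonemptyFiniteChains Q))) := by
  let c₀ : NonemptyFiniteChains Q :=
    { finset := {q₀}
      nonempty := Finset.singleton_nonempty _
      comparable := fun p q => .inl (show (p : Q) ≤ q from le_of_eq
        ((Finset.mem_singleton.1 p.2).trans (Finset.mem_singleton.1 q.2).symm)) }
  let v₀ : (nerve (NonemptyFiniteChains Q)) _⦋0⦌ := ComposableArrows.mk₀ c₀
  refine weqHomotopyEquiv _ _ _ (SSet.const v₀) ?_ ?_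
  · have e1 : chainImg (OrderHom.id : Q →o Q) = 𝟙 _ := by
      apply NatTrans.ext
      funext k
      refine ConcreteCategory.hom_ext _ _ fun y =>
        nerve.ext_of_isThin (C := NonemptyFiniteChains Q) (funext fun i => ?_)
      exact NonemptyFiniteChains.ext (Finset.ext fun p =>
        ((NonemptyFiniteChains.mem_map_iff _ _ _).trans
          ⟨fun ⟨x, hx, e⟩ => e ▸ hx, fun hp => ⟨p, hp, rfl⟩⟩))
    have e2 : chainImg (OrderHom.const Q q₀) = SSet.const v₀ := by
      apply NatTrans.ext
      funext k
      refine ConcreteCategory.hom_ext _ _ fun y =>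
        nerve.ext_of_isThin (C := NonemptyFiniteChains Q) (funext fun i => ?_)
      refine NonemptyFiniteChains.ext (Finset.ext fun p =>
        (NonemptyFiniteChains.mem_map_iff _ _ _).trans ?_)
      show _ ↔ p ∈ ({q₀} : Finset Q)
      rw [Finset.mem_singleton]
      exact ⟨fun ⟨x, _, e⟩ => e.symm,
        fun hp => ⟨_, (y.obj i).nonempty.choose_spec, hp.symm⟩⟩
    rw [SSet.comp_const, ← e1, ← e2]
    exact (htpic_of_le _ a (fun x => h2 x)).trans _ _ _ ((htpic_of_le _ a h1).symm _ _)
  · rw [terminalIsTerminal.hom_ext (SSet.const v₀ ≫ terminal.from _) (𝟙 _)]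
    exact Relation.EqvGen.refl _

/-- Flags of faces in `H` are chains in the poset of faces in `H`. -/
def flagInIso (m : ℕ) (H : Spec.Face.{u} m → Prop) :
    nerve (Spec.FlagIn m H) ≅ nerve (NonemptyFiniteChains {s : Spec.Face.{u} m // H s}) := by
  classical
  exact nerveIso
    (fun c =>
      { finset := c.1.finset.subtype H
        nonempty := by
          obtain ⟨s, hs⟩ := c.1.nonempty
          exact ⟨⟨s, c.2 s hs⟩, Finset.mem_subtype.2 hs⟩
        comparable := fun a b => c.1.comparable ⟨_, Finset.mem_subtype.1 a.2⟩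
          ⟨_, Finset.mem_subtype.1 b.2⟩ })
    (fun d => ⟨d.map ⟨fun s => s.1, fun _ _ h => h⟩, fun s hs => by
      obtain ⟨t, -, rfl⟩ := (NonemptyFiniteChains.mem_map_iff _ _ _).1 hs
      exact t.2⟩)
    (fun c c' h s hs => Finset.mem_subtype.2 (h (Finset.mem_subtype.1 hs)))
    (fun d d' h => (NonemptyFiniteChains.orderHomMap _).monotone h)
    (fun c => Subtype.ext (NonemptyFiniteChains.ext (Finset.ext fun s =>
      (NonemptyFiniteChains.mem_map_iff _ _ _).trans
        ⟨fun ⟨t, ht, e⟩ => e ▸ Finset.mem_subtype.1 ht,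
          fun hs => ⟨⟨s, c.2 s hs⟩, Finset.mem_subtype.2 hs, rfl⟩⟩)))
    (fun d => NonemptyFiniteChains.ext (Finset.ext fun s => Finset.mem_subtype.trans
      ((NonemptyFiniteChains.mem_map_iff _ _ _).trans
        ⟨fun ⟨t, ht, e⟩ => Subtype.ext e ▸ ht, fun hs => ⟨s, hs, rfl⟩⟩)))

end SdNerve

/-- Twice subdivided boundary inclusions. -/
theorem sdBoundary : Spec.SdBoundary.{u} := fun m => by
  classical
  exact sdsd_arrow m (SSet.boundary.{u} m)
    ((simplexChainy.{u} m).sub (H' := fun s => ∃ j, j ∉ s) (SSet.boundary.{u} m)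
      (fun _ _ => trivial) (fun _ _ hts _ ⟨j, hj⟩ => ⟨j, fun h => hj (hts h)⟩)
      (fun {Δ} x => by
        obtain ⟨n⟩ := Δ
        rw [SSet.mem_boundary_iff_notMem_range]
        constructor
        · rintro ⟨j, hj⟩
          refine ⟨ULift.up j, fun h => hj ?_⟩
          simp only [Finset.mem_image, Finset.mem_univ, true_and] at h
          obtain ⟨i, hi⟩ := h
          exact ⟨i, congrArg ULift.down hi⟩
        · rintro ⟨j, hj⟩
          refine ⟨j.down, fun ⟨i, hi⟩ => hj ?_⟩
          simp only [Finset.mem_image, Finset.mem_univ, true_and]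
          exact ⟨i, ULift.ext _ _ hi⟩))
    fun _ => rfl

/-- The flags of faces of a horn have a weakly contractible nerve. -/
theorem weq_flagInHorn (m : ℕ) (i : Fin (m + 2)) :
    Spec.weq (terminal.from (nerve (Spec.FlagIn.{u} (m + 1)
      fun s => ∃ j, j ≠ ULift.up i ∧ j ∉ s.finset))) := by
  classical
  let Hf : Spec.Face.{u} (m + 1) → Prop := fun s => ∃ j, j ≠ ULift.up i ∧ j ∉ s.finset
  let face : ∀ s : Finset (ULift.{u} (Fin (m + 2))), s.Nonempty → Spec.Face.{u} (m + 1) :=
    fun s hs => { finset := s, nonempty := hs, comparable := fun a b => le_total a.1.down b.1.down }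
  let add : {s // Hf s} →o {s // Hf s} :=
    ⟨fun s => ⟨face (insert (ULift.up i) s.1.finset) (Finset.insert_nonempty _ _),
      s.2.choose, s.2.choose_spec.1, fun h => (Finset.mem_insert.1 h).elim s.2.choose_spec.1
        s.2.choose_spec.2⟩,
      fun _ _ h => Finset.insert_subset_insert _ h⟩
  obtain ⟨k, hk⟩ := exists_ne i
  let q₀ : {s // Hf s} := ⟨face {ULift.up i} (Finset.singleton_nonempty _), ULift.up k,
    fun e => hk (congrArg ULift.down e), fun h =>
      hk (congrArg ULift.down (Finset.mem_singleton.1 h))⟩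
  have : Finite (Spec.Face.{u} (m + 1)) :=
    Finite.of_injective NonemptyFiniteChains.finset fun _ _ h => NonemptyFiniteChains.ext h
  have hw := weq_chains add q₀ (fun s => Finset.subset_insert _ _)
    fun s => Finset.singleton_subset_iff.2 (Finset.mem_insert_self _ _)
  rw [SSetH.weq_eq] at hw ⊢
  rw [terminal.hom_ext (terminal.from _) ((flagInIso (m + 1) Hf).hom ≫ terminal.from _)]
  exact SSetH.WE.comp (SSetH.we_of_isIso _) hw

/-- Twice subdivided horn inclusions, and their contractibility. -/
theorem sdHorn : Spec.SdHorn.{u} := fun m i => by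
  classical
  let CA : Chainy (SSet.horn.{u} (m + 1) i).toSSet
      (fun s : Finset (ULift.{u} (Fin (m + 2))) => ∃ j, j ≠ ULift.up i ∧ j ∉ s) :=
    (simplexChainy.{u} (m + 1)).sub (SSet.horn.{u} (m + 1) i) (fun _ _ => trivial)
      (fun _ _ hts _ ⟨j, hji, hj⟩ => ⟨j, hji, fun h => hj (hts h)⟩)
      (fun {Δ} x => by
        obtain ⟨n⟩ := Δ
        rw [SSet.mem_horn_iff_notMem_range]
        constructor
        · rintro ⟨j, hji, hj⟩
          refine ⟨ULift.up j, fun e => hji (congrArg ULift.down e), fun h => hj ?_⟩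
          simp only [Finset.mem_image, Finset.mem_univ, true_and] at h
          obtain ⟨a, ha⟩ := h
          exact ⟨a, congrArg ULift.down ha⟩
        · rintro ⟨j, hji, hj⟩
          refine ⟨j.down, fun e => hji (ULift.ext _ _ e), fun ⟨a, ha⟩ => hj ?_⟩
          simp only [Finset.mem_image, Finset.mem_univ, true_and]
          exact ⟨a, ULift.ext _ _ ha⟩)
  refine ⟨sdsd_arrow (m + 1) (SSet.horn.{u} (m + 1) i) CA fun _ => rfl, ?_⟩
  have hw := weq_flagInHorn.{u} m i
  rw [SSetH.weq_eq] at hw ⊢
  rw [terminal.hom_ext (terminal.from _) (CA.sdChainy.iso.hom ≫ terminal.from _)]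
  exact SSetH.WE.comp (SSetH.we_of_isIso _) hw

end

end Vale.Agent.P213
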