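import Vale.Agent.P213.SSet.WeakEquiv
import Vale.Agent.P213.Defs

/-!
# P213: closure properties, left properness and gluing for weak equivalences
-/

universe u

namespace Vale.Agent.P213.SSetH

open CategoryTheory MonoidalCategory CartesianMonoidalCategory MonoidalClosed Simplicial Limits
  HomotopicalAlgebra SSet SSet.modelCategoryQuillen Opposite

noncomputable section

variable {X Y Z A B E K M P : SSet.{u}}

/-! ## The definition used in the question -/

theorem htp_of_homotopy {f g : X ⟶ Y} (H : SSet.Homotopy f g) : Htp f g := ⟨H.h, H.h₀, H.h₁⟩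

theorem Htp.homotopy {f g : X ⟶ Y} (h : Htp f g) : Nonempty (SSet.Homotopy f g) := by
  obtain ⟨H, h0, h1⟩ := h
  exact ⟨{ h := H, h₀ := h0, h₁ := h1, rel := by ext _ ⟨⟨x, hx⟩, _⟩; simp at hx }⟩

theorem eqvGen_iff_htp [KanComplex Y] {f g : X ⟶ Y} :
    Relation.EqvGen (fun p q : X ⟶ Y => Nonempty (SSet.Homotopy p q)) f g ↔ Htp f g := by
  refine ⟨fun h => ?_, fun h => Relation.EqvGen.rel _ _ h.homotopy⟩
  induction h with
  | rel p q h => exact htp_of_homotopy h.some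
  | refl p => exact htp_refl p
  | symm p q _ ih => exact ih.symm
  | trans p q r _ _ ih ih' => exact ih.trans ih'

theorem isWeakHomotopyEquiv_iff (f : X ⟶ Y) : IsWeakHomotopyEquiv f ↔ WE f :=
  forall_congr' fun K => forall_congr' fun (_ : KanComplex K) => by simp only [eqvGen_iff_htp]

/-! ## Monomorphisms which are weak equivalences -/

theorem trivCof_iff (i : A ⟶ B) : TrivCof i ↔ Mono i ∧ WE i := Iff.rfl

instance : TrivCof.{u}.IsStableUnderCobaseChange where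
  of_isPushout sq h := by
    rw [trivCof_eq] at h ⊢
    exact ⟨MorphismProperty.of_isPushout sq h.1, MorphismProperty.of_isPushout sq h.2⟩

instance : TrivCof.{u}.IsMultiplicative := by
  rw [trivCof_eq]
  exact { id_mem := fun X => ⟨MorphismProperty.id_mem _ X, MorphismProperty.id_mem _ X⟩
          comp_mem := fun f g hf hg =>
            ⟨MorphismProperty.comp_mem _ f g hf.1 hg.1, MorphismProperty.comp_mem _ f g hf.2 hg.2⟩ }

instance : TrivCof.{u}.RespectsIso :=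
  MorphismProperty.RespectsIso.of_respects_arrow_iso _ fun _ _ e hf =>
    ⟨((MorphismProperty.monomorphisms _).arrow_mk_iso_iff e).1 hf.1,
      (WE.arrow_mk_iso_iff e).1 hf.2⟩

instance (J : Type*) [LinearOrder J] [SuccOrder J] [OrderBot J] [WellFoundedLT J]
    [HasIterationOfShape J SSet.{u}]
    [(MorphismProperty.monomorphisms SSet.{u}).IsStableUnderTransfiniteCompositionOfShape J] :
    TrivCof.{u}.IsStableUnderTransfiniteCompositionOfShape J where
  le X Y f := by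
    rintro ⟨h⟩
    rw [trivCof_eq] at h ⊢
    exact ⟨MorphismProperty.transfiniteCompositionsOfShape_le _ J _
        (h.ofLE inf_le_left).mem,
      MorphismProperty.transfiniteCompositionsOfShape_le _ J _ (h.ofLE inf_le_right).mem⟩

instance : MorphismProperty.IsStableUnderTransfiniteComposition.{u} TrivCof.{u} where

instance : MorphismProperty.IsStableUnderCoproducts.{u} TrivCof.{u} where
  isStableUnderCoproductsOfShape J :=
    { condition := fun X₁ X₂ c₁ c₂ h₁ h₂ f hf φ hφ => by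
        have hm := (MorphismProperty.IsStableUnderCoproducts.isStableUnderCoproductsOfShape
          (W := MorphismProperty.monomorphisms SSet.{u}) J).condition X₁ X₂ c₁ c₂ h₁ h₂ f
            (fun j => (hf j).1) φ hφ
        rw [trivCof_eq]
        exact ⟨hm, (MorphismProperty.IsStableUnderCoproducts.isStableUnderCoproductsOfShape
          (W := RestrMaps.{u}.llp) J).condition X₁ X₂ c₁ c₂ h₁ h₂ f
            (fun j => by have := hf j; rw [trivCof_eq] at this; exact this.2) φ hφ⟩ }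

/-! ## Factorisation -/

attribute [local instance] Cardinal.fact_isRegular_aleph0
  Cardinal.orderBotAleph0OrdToType

instance : MorphismProperty.IsSmall.{u} modelCategoryQuillen.I.{u} :=
  MorphismProperty.isSmall_ofHoms ..

instance : MorphismProperty.IsCardinalForSmallObjectArgument modelCategoryQuillen.I.{u}
    Cardinal.aleph0.{u} where
  preservesColimit {A B X Y} i hi f hf := by
    have : IsFinitelyPresentable.{u} A := by
      obtain ⟨n⟩ := hi
      infer_instance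
    infer_instance

instance : MorphismProperty.HasSmallObjectArgument.{u} modelCategoryQuillen.I.{u} :=
  ⟨.aleph0, inferInstance, inferInstance, inferInstance⟩

theorem llp_rlp_I_le : modelCategoryQuillen.I.{u}.rlp.llp ≤ MorphismProperty.monomorphisms _ := by
  rw [MorphismProperty.llp_rlp_of_hasSmallObjectArgument, MorphismProperty.retracts_le_iff]
  refine le_trans (MorphismProperty.transfiniteCompositions_monotone ?_)
    (MorphismProperty.transfiniteCompositions_le _)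
  exact le_trans (MorphismProperty.pushouts_monotone
    (le_trans (MorphismProperty.coproducts_monotone I_le_monomorphisms)
      (MorphismProperty.coproducts_le _))) (by simp)

/-- Every map is a monomorphism followed by a map with the lifting property against all of them. -/
theorem exists_factorization (f : X ⟶ Y) : ∃ (M : SSet.{u}) (j : X ⟶ M) (q : M ⟶ Y),
    Mono j ∧ (MorphismProperty.monomorphisms SSet.{u}).rlp q ∧ j ≫ q = f :=
  let d := MorphismProperty.factorizationData modelCategoryQuillen.I.{u}.rlp.llp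
    modelCategoryQuillen.I.{u}.rlp f
  ⟨d.Z, d.i, d.p, llp_rlp_I_le _ d.hi, by rw [rlp_monomorphisms]; exact d.hp, d.fac⟩

theorem mono_whiskerLeft (M : SSet.{u}) (i : X ⟶ Y) [Mono i] : Mono (M ◁ i) :=
  ⟨fun a b h => CartesianMonoidalCategory.hom_ext _ _ (by simpa using h =≫ fst _ _)
    ((cancel_mono i).1 (by simpa using h =≫ snd _ _))⟩

/-- Maps with the lifting property against monomorphisms are fibrewise homotopy equivalences. -/
theorem exists_section_htp (q : M ⟶ Y) (hq : (MorphismProperty.monomorphisms SSet.{u}).rlp q) :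
    ∃ (σ : Y ⟶ M) (L : M ⊗ Δ[1] ⟶ M), σ ≫ q = 𝟙 Y ∧ SSet.ι₀ ≫ L = q ≫ σ ∧
      SSet.ι₁ ≫ L = 𝟙 M ∧ L ≫ q = fst _ _ ≫ q := by
  have := hq _ (MorphismProperty.monomorphisms.infer_property (initial.to Y))
  let sq : CommSq (initial.to M) (initial.to Y) q (𝟙 Y) := ⟨initialIsInitial.hom_ext _ _⟩
  have hp : (MorphismProperty.monomorphisms SSet.{u}).rlp ((ihom M).map q) := fun U V j (_ : Mono j) => by
    rw [← (ihom.adjunction M).hasLiftingProperty_iff]
    exact hq _ (mono_whiskerLeft M j)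
  obtain ⟨e, e1, e0, he⟩ := exists_path_lift _ hp (nm (q ≫ sq.lift)) (nm (𝟙 M))
    (curry (fst _ _ ≫ q))
    (by rw [nm, src_curry, ι₀_fst_assoc, ← curry_natural_right, Category.assoc, Category.assoc,
      sq.fac_right, Category.comp_id, nm])
    (by rw [nm, tgt_curry, ι₁_fst_assoc, ← curry_natural_right, Category.assoc,
      Category.id_comp, nm])
  refine ⟨sq.lift, uncurry e, sq.fac_right, nm_injective ?_, nm_injective ?_, ?_⟩
  · rw [← src_curry, curry_uncurry, e1]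
  · rw [← tgt_curry, curry_uncurry, e0]
  · apply curry_injective
    rw [curry_natural_right, curry_uncurry, he]

theorem we_of_rlp_mono (q : M ⟶ Y) (hq : (MorphismProperty.monomorphisms SSet.{u}).rlp q) :
    WE q := by
  obtain ⟨σ, L, hσ, hL0, hL1, -⟩ := exists_section_htp q hq
  exact we_of_htpEquiv q σ ⟨L, hL0, hL1⟩ (hσ ▸ htp_refl _)

/-! ## Left properness -/

/-- The homotopy extension property. -/
theorem exists_hep (i : A ⟶ B) [Mono i] [KanComplex K] {g : B ⟶ K} {a : A ⟶ K}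
    (h : Htp (i ≫ g) a) : ∃ g', i ≫ g' = a ∧ Htp g g' := by
  obtain ⟨H, h0, h1⟩ := h
  obtain ⟨L, hL, hLi, -⟩ := exists_lift_cyl 1 i (terminal.from K) (fst _ _ ≫ g) H
    (by rw [whisker_δ_one, Category.assoc, h0, whiskerRight_fst_assoc]) (terminal.from _)
    (terminal.hom_ext _ _) (terminal.hom_ext _ _)
  refine ⟨SSet.ι₁ ≫ L, by rw [← ι₁_comp_assoc, hLi, h1], L, ?_, rfl⟩
  rw [whisker_δ_one, Category.assoc] at hL
  exact (cancel_epi (ptIso B).hom).1 hL

theorem boundary_tensor_hom_ext {T : SSet.{u}} {f g : (∂Δ[1] : SSet.{u}) ⊗ T ⟶ Z}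
    (h : ∀ i : Fin 2, boundary.ι i ▷ T ≫ f = boundary.ι i ▷ T ≫ g) : f = g := by
  have := boundary.hom_ext (f := curry ((β_ T _).hom ≫ f)) (g := curry ((β_ T _).hom ≫ g))
    fun i => by
      rw [← curry_natural_left, ← curry_natural_left, BraidedCategory.braiding_naturality_right_assoc,
        BraidedCategory.braiding_naturality_right_assoc, h i]
  exact (cancel_epi (β_ T _).hom).1 (curry_injective this)

/-- Exchange of the two time coordinates. -/
def perm (M I J : SSet.{u}) : M ⊗ (I ⊗ J) ⟶ (M ⊗ J) ⊗ I :=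
  lift (lift (fst _ _) (snd _ _ ≫ snd _ _)) (snd _ _ ≫ fst _ _)

/-- A path of functions on `B` may be replaced by one which on `M` comes from the base. -/
theorem exists_replace_path {A' : SSet.{u}} (k : M ⟶ B) [Mono k] (q : M ⟶ A') (σ : A' ⟶ M)
    (L : M ⊗ Δ[1] ⟶ M) (hL0 : SSet.ι₀ ≫ L = q ≫ σ) (hL1 : SSet.ι₁ ≫ L = 𝟙 M)
    (hLq : L ≫ q = fst _ _ ≫ q) [KanComplex K] (H : B ⊗ Δ[1] ⟶ K)
    (a b : A' ⟶ K) (ha : k ≫ SSet.ι₀ ≫ H = q ≫ a) (hb : k ≫ SSet.ι₁ ≫ H = q ≫ b) :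
    ∃ H' : B ⊗ Δ[1] ⟶ K, SSet.ι₀ ≫ H' = SSet.ι₀ ≫ H ∧ SSet.ι₁ ≫ H' = SSet.ι₁ ≫ H ∧
      k ▷ _ ≫ H' = q ▷ _ ≫ σ ▷ _ ≫ k ▷ _ ≫ H := by
  let D : (Δ[1] : SSet.{u}) ⊗ Δ[1] ⟶ (ihom M).obj K :=
    curry (perm M Δ[1] Δ[1] ≫ L ▷ _ ≫ k ▷ _ ≫ H)
  obtain ⟨L2, hl, hG, hD⟩ := exists_lift_cyl 0 (∂Δ[1].ι) ((pre k).app K)
    (fst _ _ ≫ curry H) (fst _ _ ≫ ∂Δ[1].ι ≫ curry H)
    (by rw [whiskerRight_fst_assoc, whiskerLeft_fst_assoc]) D
    (by
      rw [Category.assoc, curry_pre_app, ← curry_natural_left, ← curry_natural_left]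
      congr 1
      have e : M ◁ ((Δ[1] : SSet.{u}) ◁ stdSimplex.δ (0 : Fin 2)) ≫ perm M Δ[1] Δ[1] =
          M ◁ fst (Δ[1] : SSet.{u}) (Δ[0] : SSet.{u}) ≫ (SSet.ι₁ : M ⟶ M ⊗ Δ[1]) ▷ _ := by
        rw [whisker_δ_zero]
        ext m ⟨x, y, z⟩ <;> rfl
      rw [reassoc_of% e, ← comp_whiskerRight_assoc, hL1, id_whiskerRight, Category.id_comp])
    (by
      apply boundary_tensor_hom_ext
      intro i
      simp only [whiskerRight_fst_assoc, Category.assoc, boundary.ι_ι_assoc]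
      rw [← comp_whiskerRight_assoc, boundary.ι_ι, curry_pre_app, ← curry_natural_left,
        ← curry_natural_left, ← curry_natural_left]
      congr 1
      fin_cases i
      · have e : M ◁ (stdSimplex.δ.{u} (0 : Fin 2) ▷ (Δ[1] : SSet.{u})) ≫ perm M Δ[1] Δ[1] =
            M ◁ snd (Δ[0] : SSet.{u}) (Δ[1] : SSet.{u}) ≫ SSet.ι₁ := by
          rw [← cancel_epi (α_ M (Δ[0] : SSet.{u}) Δ[1]).hom]
          apply CartesianMonoidalCategory.hom_ext
          · simp [perm]; ext m ⟨⟨x, y⟩, z⟩ <;> rfl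
          · have := congrArg (fun t => (fst _ _ : (M ⊗ (Δ[0] : SSet.{u})) ⊗ Δ[1] ⟶ _) ≫ t ≫ snd _ _)
              (whisker_δ_zero M)
            simp [perm] at this ⊢
            exact this
        simp only [Fin.zero_eta]
        rw [reassoc_of% e, reassoc_of% (whisker_δ_zero M), ι₁_comp_assoc, ι₁_comp_assoc, hb, ι₁_comp_assoc, hb,
          reassoc_of% hLq]
        simp
      · have e : M ◁ (stdSimplex.δ.{u} (1 : Fin 2) ▷ (Δ[1] : SSet.{u})) ≫ perm M Δ[1] Δ[1] =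
            M ◁ snd (Δ[0] : SSet.{u}) (Δ[1] : SSet.{u}) ≫ SSet.ι₀ := by
          rw [← cancel_epi (α_ M (Δ[0] : SSet.{u}) Δ[1]).hom]
          apply CartesianMonoidalCategory.hom_ext
          · simp [perm]; ext m ⟨⟨x, y⟩, z⟩ <;> rfl
          · have := congrArg (fun t => (fst _ _ : (M ⊗ (Δ[0] : SSet.{u})) ⊗ Δ[1] ⟶ _) ≫ t ≫ snd _ _)
              (whisker_δ_one M)
            simp [perm] at this ⊢
            exact this
        simp only [Fin.mk_one]
        rw [reassoc_of% e, reassoc_of% (whisker_δ_one M), ι₀_comp_assoc, ι₀_comp_assoc, ha, ι₀_comp_assoc, ha,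
          reassoc_of% hLq]
        simp)
  have hend : ∀ i : Fin 2, stdSimplex.δ i ≫ SSet.ι₀ ≫ L2 = stdSimplex.δ i ≫ curry H := fun i => by
    have := (SSet.ι₀ ≫ boundary.ι i ▷ _) ≫= hG
    rw [ι₀_comp, Category.assoc, Category.assoc, ι₀_comp_assoc, ι₀_fst_assoc, boundary.ι_ι_assoc,
      boundary.ι_ι_assoc] at this
    exact this
  refine ⟨uncurry (SSet.ι₀ ≫ L2), nm_injective ?_, nm_injective ?_, curry_injective ?_⟩
  · rw [← src_curry, ← src_curry, curry_uncurry, hend]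
  · rw [← tgt_curry, ← tgt_curry, curry_uncurry, hend]
  · rw [← curry_pre_app, curry_uncurry, Category.assoc, hD, ← curry_natural_left]
    congr 1
    have e : M ◁ (SSet.ι₀ : (Δ[1] : SSet.{u}) ⟶ _) ≫ perm M Δ[1] Δ[1] =
        (SSet.ι₀ : M ⟶ M ⊗ Δ[1]) ▷ _ := by
      ext m ⟨x, y⟩ <;> rfl
    rw [reassoc_of% e, ← comp_whiskerRight_assoc, hL0, comp_whiskerRight_assoc]

theorem we_inr_of_rlp {A' : SSet.{u}} {q : M ⟶ A'} {k : M ⟶ B} {k' : A' ⟶ P} {q' : B ⟶ P}
    (sq : IsPushout q k k' q') [Mono k]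
    (hq : (MorphismProperty.monomorphisms SSet.{u}).rlp q) : WE q' := fun K hK => by
  obtain ⟨σ, L, hσ, hL0, hL1, hLq⟩ := exists_section_htp q hq
  refine ⟨fun g => ?_, fun h h' hh => ?_⟩
  · have hH : Htp (k ≫ g) (q ≫ σ ≫ k ≫ g) := by
      simpa using ((show Htp (q ≫ σ) (𝟙 M) from ⟨L, hL0, hL1⟩).comp_right (k ≫ g)).symm
    obtain ⟨g', hg', hgg'⟩ := exists_hep k hH
    refine ⟨sq.desc (σ ≫ k ≫ g) g' hg'.symm, ?_⟩
    rw [sq.inr_desc]
    exact hgg'.symm
  · obtain ⟨H, h0, h1⟩ := hh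
    obtain ⟨H', e0, e1, ek⟩ := exists_replace_path k q σ L hL0 hL1 hLq H (k' ≫ h) (k' ≫ h')
      (by rw [h0, reassoc_of% sq.w]) (by rw [h1, reassoc_of% sq.w])
    have sq' : IsPushout (q ▷ Δ[1]) (k ▷ Δ[1]) (k' ▷ Δ[1]) (q' ▷ Δ[1]) :=
      sq.map (tensorRight (Δ[1] : SSet.{u}))
    refine ⟨sq'.desc (σ ▷ _ ≫ k ▷ _ ≫ H) H' ek.symm, ?_, ?_⟩
    · apply sq.hom_ext
      · rw [← ι₀_comp_assoc, sq'.inl_desc, ι₀_comp_assoc, ι₀_comp_assoc, h0, ← reassoc_of% sq.w,
          reassoc_of% hσ]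
      · rw [← ι₀_comp_assoc, sq'.inr_desc, e0, h0]
    · apply sq.hom_ext
      · rw [← ι₁_comp_assoc, sq'.inl_desc, ι₁_comp_assoc, ι₁_comp_assoc, h1, ← reassoc_of% sq.w,
          reassoc_of% hσ]
      · rw [← ι₁_comp_assoc, sq'.inr_desc, e1, h1]

/-- **Left properness.** The pushout of a weak equivalence along a monomorphism is one. -/
theorem we_inr {A' : SSet.{u}} {f : A ⟶ A'} {i : A ⟶ B} {i' : A' ⟶ P} {f' : B ⟶ P}
    (sq : IsPushout f i i' f') [Mono i] (hf : WE f) : WE f' := by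
  obtain ⟨M, j, q, hj, hq, rfl⟩ := exists_factorization f
  have hjw : TrivCof j := ⟨hj, (we_of_rlp_mono q hq).of_comp_right hf⟩
  have sq₁ : IsPushout j i (pushout.inl j i) (pushout.inr j i) := IsPushout.of_hasPushout j i
  have hk : Mono (pushout.inl j i) :=
    MorphismProperty.of_isPushout (P := MorphismProperty.monomorphisms _) sq₁
      (MorphismProperty.monomorphisms.infer_property i)
  let q' : pushout j i ⟶ P := pushout.desc (q ≫ i') f' (by simpa using sq.w)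
  have hq' : pushout.inr j i ≫ q' = f' := pushout.inr_desc _ _ _
  have sq₂ : IsPushout q (pushout.inl j i) i' q' :=
    IsPushout.of_left (by rw [hq']; exact sq) (pushout.inl_desc _ _ _).symm sq₁
  rw [← hq']
  exact WE.comp (MorphismProperty.of_isPushout (P := TrivCof) sq₁.flip hjw).2 (we_inr_of_rlp sq₂ hq)

theorem mono_inl {C : SSet.{u}} {f : A ⟶ C} {i : A ⟶ B} {i' : C ⟶ P} {f' : B ⟶ P}
    (sq : IsPushout f i i' f') [Mono i] : Mono i' :=
  MorphismProperty.of_isPushout (P := MorphismProperty.monomorphisms _) sq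
    (MorphismProperty.monomorphisms.infer_property i)

/-- **Gluing.** A map of pushouts along monomorphisms which is a weak equivalence on the three
corners is a weak equivalence. -/
theorem we_of_cube {X₀ X₁ X₂ Y₀ Y₁ Y₂ : SSet.{u}} {a₁ : X₀ ⟶ X₁} {a₂ : X₀ ⟶ X₂}
    {b₁ : X₁ ⟶ X} {b₂ : X₂ ⟶ X} (hX : IsPushout a₁ a₂ b₁ b₂)
    {c₁ : Y₀ ⟶ Y₁} {c₂ : Y₀ ⟶ Y₂} {d₁ : Y₁ ⟶ Y} {d₂ : Y₂ ⟶ Y} (hY : IsPushout c₁ c₂ d₁ d₂)
    [Mono a₂] [Mono c₁] {f₀ : X₀ ⟶ Y₀} {f₁ : X₁ ⟶ Y₁} {f₂ : X₂ ⟶ Y₂} {f : X ⟶ Y}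
    (e₁ : a₁ ≫ f₁ = f₀ ≫ c₁) (e₂ : a₂ ≫ f₂ = f₀ ≫ c₂) (g₁ : b₁ ≫ f = f₁ ≫ d₁)
    (g₂ : b₂ ≫ f = f₂ ≫ d₂) (w₀ : WE f₀) (w₁ : WE f₁) (w₂ : WE f₂) : WE f := by
  have hb₁ : Mono b₁ := mono_inl hX
  -- push `X` out along `f₁`
  have sq₁ := IsPushout.of_hasPushout f₁ b₁
  have hZ : IsPushout (a₁ ≫ f₁) a₂ (pushout.inl f₁ b₁) (b₂ ≫ pushout.inr f₁ b₁) :=
    hX.paste_horiz sq₁
  -- the corner over `Y₀`
  have sq₂ := IsPushout.of_hasPushout f₀ a₂
  let g : pushout f₀ a₂ ⟶ Y₂ := pushout.desc c₂ f₂ e₂.symm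
  have hg : pushout.inr f₀ a₂ ≫ g = f₂ := pushout.inr_desc _ _ _
  have hgl : pushout.inl f₀ a₂ ≫ g = c₂ := pushout.inl_desc _ _ _
  have hgw : WE g := WE.of_comp_left (we_inr sq₂ w₀) (hg.symm ▸ w₂)
  let r : pushout f₀ a₂ ⟶ pushout f₁ b₁ :=
    pushout.desc (c₁ ≫ pushout.inl f₁ b₁) (b₂ ≫ pushout.inr f₁ b₁)
      (by rw [← reassoc_of% e₁]; exact hZ.w)
  have hrl : pushout.inl f₀ a₂ ≫ r = c₁ ≫ pushout.inl f₁ b₁ := pushout.inl_desc _ _ _
  have hrr : pushout.inr f₀ a₂ ≫ r = b₂ ≫ pushout.inr f₁ b₁ := pushout.inr_desc _ _ _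
  have sq₃ : IsPushout c₁ (pushout.inl f₀ a₂) (pushout.inl f₁ b₁) r :=
    IsPushout.of_left (by rw [← e₁, hrr]; exact hZ) hrl.symm sq₂
  have hr : Mono r := mono_inl sq₃.flip
  let f' : pushout f₁ b₁ ⟶ Y := pushout.desc d₁ f g₁.symm
  have hf'l : pushout.inl f₁ b₁ ≫ f' = d₁ := pushout.inl_desc _ _ _
  have hf'r : pushout.inr f₁ b₁ ≫ f' = f := pushout.inr_desc _ _ _
  have hw : r ≫ f' = g ≫ d₂ := by
    apply pushout.hom_ext
    · rw [reassoc_of% hrl, hf'l, reassoc_of% hgl, hY.w]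
    · rw [reassoc_of% hrr, hf'r, reassoc_of% hg, g₂]
  have sq₄ : IsPushout g r d₂ f' :=
    (IsPushout.of_top (by rw [hgl, hf'l]; exact hY) hw sq₃).flip
  rw [← hf'r]
  exact WE.comp (we_inr sq₁ w₁) (we_inr sq₄ hgw)

end

end Vale.Agent.P213.SSetH
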