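import Mathlib.AlgebraicTopology.SimplicialSet.AnodyneExtensions.PushoutProduct
import Mathlib.AlgebraicTopology.SimplicialSet.Homotopy
import Mathlib.CategoryTheory.Adhesive.Basic
import Mathlib

/-!
# P213: homotopies of maps into Kan complexes

Homotopies are edges of the function complexes. A homotopy equivalence which is a Kan fibration
between Kan complexes has the right lifting property with respect to all monomorphisms.
-/

universe u

namespace Vale.Agent.P213.SSetH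

open CategoryTheory MonoidalCategory CartesianMonoidalCategory MonoidalClosed Simplicial Limits
  HomotopicalAlgebra SSet SSet.modelCategoryQuillen Opposite

noncomputable section

variable {X Y Z A B E K : SSet.{u}}

/-- Homotopy of maps of simplicial sets (only used as an equivalence relation for Kan targets). -/
def Htp (f g : X ⟶ Y) : Prop := ∃ h : X ⊗ Δ[1] ⟶ Y, SSet.ι₀ ≫ h = f ∧ SSet.ι₁ ≫ h = g

theorem htp_refl (f : X ⟶ Y) : Htp f f :=
  ⟨fst _ _ ≫ f, by rw [ι₀_fst_assoc], by rw [ι₁_fst_assoc]⟩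

theorem Htp.comp_left {f g : X ⟶ Y} (h : Htp f g) (k : Z ⟶ X) : Htp (k ≫ f) (k ≫ g) := by
  obtain ⟨H, h0, h1⟩ := h
  exact ⟨k ▷ _ ≫ H, by rw [ι₀_comp_assoc, h0], by rw [ι₁_comp_assoc, h1]⟩

theorem Htp.comp_right {f g : X ⟶ Y} (h : Htp f g) (k : Y ⟶ Z) : Htp (f ≫ k) (g ≫ k) := by
  obtain ⟨H, h0, h1⟩ := h
  exact ⟨H ≫ k, by rw [← h0, Category.assoc], by rw [← h1, Category.assoc]⟩

/-- The map `X ⊗ Δ[0] ≅ X`. -/
def ptIso (X : SSet.{u}) : X ⊗ (Δ[0] : SSet.{u}) ≅ X where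
  hom := fst _ _
  inv := lift (𝟙 X) (SSet.const (stdSimplex.obj₀Equiv.{u}.symm 0))
  hom_inv_id := by
    apply CartesianMonoidalCategory.hom_ext
    · simp
    · exact stdSimplex.ext₀
  inv_hom_id := by simp

theorem whisker_δ_one (X : SSet.{u}) :
    X ◁ stdSimplex.δ (1 : Fin 2) = fst X (Δ[0] : SSet.{u}) ≫ SSet.ι₀ := by
  apply CartesianMonoidalCategory.hom_ext
  · simp
  · rw [whiskerLeft_snd, Category.assoc, ι₀_snd, SSet.comp_const,
      show snd X (Δ[0] : SSet.{u}) = SSet.const (stdSimplex.obj₀Equiv.{u}.symm 0) from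
        stdSimplex.ext₀, SSet.const_comp]
    congr 1

theorem whisker_δ_zero (X : SSet.{u}) :
    X ◁ stdSimplex.δ (0 : Fin 2) = fst X (Δ[0] : SSet.{u}) ≫ SSet.ι₁ := by
  apply CartesianMonoidalCategory.hom_ext
  · simp
  · rw [whiskerLeft_snd, Category.assoc, ι₁_snd, SSet.comp_const,
      show snd X (Δ[0] : SSet.{u}) = SSet.const (stdSimplex.obj₀Equiv.{u}.symm 0) from
        stdSimplex.ext₀, SSet.const_comp]
    congr 1

instance (k : Fin 2) (j : Fin 2) (h : j ≠ k) : IsIso (horn.ι.{u} k j h) := by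
  have : Mono (horn.ι.{u} k j h ≫ Λ[1, k].ι) := by rw [horn.ι_ι]; infer_instance
  have : Mono (horn.ι.{u} k j h) := mono_of_mono _ Λ[1, k].ι
  have : Epi (horn.ι.{u} k j h) := ⟨fun f g hfg => horn.hom_ext' fun i hi => by
    obtain rfl : i = j := by omega
    exact hfg⟩
  exact isIso_of_mono_of_epi _

theorem anodyne_δ (j : Fin 2) : anodyneExtensions (stdSimplex.δ.{u} j) := by
  have h : j ≠ (1 - j : Fin 2) := by fin_cases j <;> decide
  rw [← horn.ι_ι.{u} (1 - j : Fin 2) j h]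
  exact MorphismProperty.comp_mem _ _ _ (anodyneExtensions.of_isIso _)
    (anodyneExtensions.horn_ι _)

theorem anodyne_ι₀ (X : SSet.{u}) : anodyneExtensions (SSet.ι₀ : X ⟶ X ⊗ Δ[1]) := by
  have h := (anodyne_δ.{u} 1).whiskerLeft X
  rw [whisker_δ_one] at h
  exact (anodyneExtensions.cancel_left_of_respectsIso (ptIso X).hom _).1 h

theorem lift_of_anodyne {i : A ⟶ B} (hi : anodyneExtensions i) (p : E ⟶ X) [Fibration p]
    (a : A ⟶ E) (b : B ⟶ X) (w : a ≫ p = i ≫ b) : ∃ l : B ⟶ E, i ≫ l = a ∧ l ≫ p = b := by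
  have : HasLiftingProperty i p := hi _ (by rwa [← HomotopicalAlgebra.fibration_iff])
  exact ⟨(CommSq.mk w).lift, (CommSq.mk w).fac_left, (CommSq.mk w).fac_right⟩

/-- Homotopy lifting for a monomorphism and a fibration, from the end `δ j`. -/
theorem exists_lift_cyl (j : Fin 2) (i : A ⟶ B) [Mono i] (p : E ⟶ X) [Fibration p]
    (l : B ⊗ (Δ[0] : SSet.{u}) ⟶ E) (G : A ⊗ Δ[1] ⟶ E) (hG : i ▷ _ ≫ l = A ◁ stdSimplex.δ j ≫ G)
    (H : B ⊗ Δ[1] ⟶ X) (h₁ : l ≫ p = B ◁ stdSimplex.δ j ≫ H) (h₂ : G ≫ p = i ▷ _ ≫ H) :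
    ∃ L : B ⊗ Δ[1] ⟶ E, B ◁ stdSimplex.δ j ≫ L = l ∧ i ▷ _ ≫ L = G ∧ L ≫ p = H := by
  let sq := Functor.PushoutObjObj.ofHasPushout (curriedTensor SSet.{u}) i (stdSimplex.δ j)
  obtain ⟨L, hL, hLp⟩ := lift_of_anodyne (anodyneExtensions_pushoutObjObjι sq (anodyne_δ j)) p
    (sq.isPushout.desc l G hG) H (by
      apply sq.isPushout.hom_ext
      · rw [IsPushout.inl_desc_assoc, h₁, sq.inl_ι_assoc]
        rfl
      · rw [IsPushout.inr_desc_assoc, h₂, sq.inr_ι_assoc]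
        rfl)
  refine ⟨L, ?_, ?_, hLp⟩
  · have := sq.inl ≫= hL
    rw [IsPushout.inl_desc, sq.inl_ι_assoc] at this
    exact this
  · have := sq.inr ≫= hL
    rw [IsPushout.inr_desc, sq.inr_ι_assoc] at this
    exact this

/-! ## Edges of function complexes -/

/-- The vertex of the function complex given by a map. -/
def nm (f : X ⟶ Y) : (Δ[0] : SSet.{u}) ⟶ (ihom X).obj Y := curry (fst X _ ≫ f)

theorem nm_injective : Function.Injective (nm : (X ⟶ Y) → _) := fun f g h => by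
  have := curry_injective h
  exact (cancel_epi (ptIso X).hom).1 this

theorem src_curry (h : X ⊗ Δ[1] ⟶ Y) :
    stdSimplex.δ (1 : Fin 2) ≫ curry h = nm (SSet.ι₀ ≫ h) := by
  rw [← curry_natural_left, whisker_δ_one, Category.assoc, nm]

theorem tgt_curry (h : X ⊗ Δ[1] ⟶ Y) :
    stdSimplex.δ (0 : Fin 2) ≫ curry h = nm (SSet.ι₁ ≫ h) := by
  rw [← curry_natural_left, whisker_δ_zero, Category.assoc, nm]

theorem htp_of_edge {f g : X ⟶ Y} (e : (Δ[1] : SSet.{u}) ⟶ (ihom X).obj Y)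
    (h0 : stdSimplex.δ (1 : Fin 2) ≫ e = nm f) (h1 : stdSimplex.δ (0 : Fin 2) ≫ e = nm g) :
    Htp f g := by
  refine ⟨uncurry e, nm_injective ?_, nm_injective ?_⟩
  · rw [← src_curry, curry_uncurry, h0]
  · rw [← tgt_curry, curry_uncurry, h1]

theorem Htp.edge {f g : X ⟶ Y} (h : Htp f g) : ∃ e : (Δ[1] : SSet.{u}) ⟶ (ihom X).obj Y,
    stdSimplex.δ (1 : Fin 2) ≫ e = nm f ∧ stdSimplex.δ (0 : Fin 2) ≫ e = nm g := by
  obtain ⟨H, h0, h1⟩ := h
  exact ⟨curry H, by rw [src_curry, h0], by rw [tgt_curry, h1]⟩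

theorem δδ {m : ℕ} (i j : Fin (m + 2)) (h : i ≤ j) (Z : SSet.{u}) (b : Δ[m + 2] ⟶ Z) :
    stdSimplex.δ i ≫ stdSimplex.δ j.succ ≫ b = stdSimplex.δ j ≫ stdSimplex.δ i.castSucc ≫ b :=
  stdSimplex.δ_comp_δ_assoc h b

/-- A path lying over a degenerate triangle: horn filling at the last vertex. -/
theorem exists_edge₂₂ {F F' : SSet.{u}} (q : F ⟶ F') [Fibration q] (e02 e12 : Δ[1] ⟶ F)
    (h2 : stdSimplex.δ (0 : Fin 2) ≫ e02 = stdSimplex.δ (0 : Fin 2) ≫ e12) (b : Δ[2] ⟶ F')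
    (hb1 : stdSimplex.δ (1 : Fin 3) ≫ b = e02 ≫ q)
    (hb0 : stdSimplex.δ (0 : Fin 3) ≫ b = e12 ≫ q) :
    ∃ e01 : Δ[1] ⟶ F, stdSimplex.δ (1 : Fin 2) ≫ e01 = stdSimplex.δ (1 : Fin 2) ≫ e02 ∧
      stdSimplex.δ (0 : Fin 2) ≫ e01 = stdSimplex.δ (1 : Fin 2) ≫ e12 ∧
      e01 ≫ q = stdSimplex.δ (2 : Fin 3) ≫ b := by
  let a : (Λ[2, 2] : SSet.{u}) ⟶ F := horn₂₂.isPushout.desc e02 e12 h2
  have ha1 : horn₂₂.ι₀₂ ≫ a = e02 := IsPushout.inl_desc _ _ _ _
  have ha0 : horn₂₂.ι₁₂ ≫ a = e12 := IsPushout.inr_desc _ _ _ _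
  obtain ⟨φ, hφ, hφq⟩ := lift_of_anodyne (anodyneExtensions.horn_ι (2 : Fin 3)) q a b (by
    apply horn₂₂.isPushout.hom_ext
    · rw [reassoc_of% ha1, horn.ι_ι_assoc, hb1]
    · rw [reassoc_of% ha0, horn.ι_ι_assoc, hb0])
  refine ⟨stdSimplex.δ (2 : Fin 3) ≫ φ, ?_, ?_, by rw [Category.assoc, hφq]⟩
  · rw [← ha1, ← hφ, horn.ι_ι_assoc]
    exact δδ 1 1 le_rfl F φ
  · rw [← ha0, ← hφ, horn.ι_ι_assoc]
    exact δδ 0 1 (by decide) F φ

theorem σδ (j : Fin 3) (hj : j = 0 ∨ j = 1) :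
    stdSimplex.δ.{u} j ≫ stdSimplex.σ (0 : Fin 2) = 𝟙 _ := by
  rcases hj with rfl | rfl
  · exact stdSimplex.δ_comp_σ_self (i := (0 : Fin 2))
  · exact stdSimplex.δ_comp_σ_succ (i := (0 : Fin 2))

theorem σδ₂ :
    stdSimplex.δ.{u} (2 : Fin 3) ≫ stdSimplex.σ (0 : Fin 2) =
      stdSimplex.σ (0 : Fin 1) ≫ stdSimplex.δ (1 : Fin 2) :=
  stdSimplex.δ_comp_σ_of_gt (i := (1 : Fin 2)) (j := (0 : Fin 1)) (by decide)

/-- Composition of edges `e₀₂ · e₁₂⁻¹` in a Kan complex. -/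
theorem htp_euclid [KanComplex Y] {f g k : X ⟶ Y} (h₁ : Htp f k) (h₂ : Htp g k) : Htp f g := by
  obtain ⟨e02, h02, h02'⟩ := h₁.edge
  obtain ⟨e12, h12, h12'⟩ := h₂.edge
  let a := horn₂₂.isPushout.desc e02 e12 (by rw [h02', h12'])
  obtain ⟨φ, hφ⟩ := KanComplex.hornFilling a
  have ha1 : horn₂₂.ι₀₂ ≫ a = e02 := IsPushout.inl_desc _ _ _ _
  have ha0 : horn₂₂.ι₁₂ ≫ a = e12 := IsPushout.inr_desc _ _ _ _
  rw [hφ, horn.ι_ι_assoc] at ha1 ha0
  refine htp_of_edge (stdSimplex.δ (2 : Fin 3) ≫ φ) ?_ ?_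
  · rw [← h02, ← ha1]
    exact δδ 1 1 le_rfl _ φ
  · rw [← h12, ← ha0]
    exact δδ 0 1 (by decide) _ φ

theorem Htp.symm [KanComplex Y] {f g : X ⟶ Y} (h : Htp f g) : Htp g f :=
  htp_euclid (htp_refl g) h

theorem Htp.trans [KanComplex Y] {f g k : X ⟶ Y} (h₁ : Htp f g) (h₂ : Htp g k) : Htp f k :=
  htp_euclid h₁ h₂.symm

/-- Homotopies pass through currying. -/
theorem htp_curry_iff {T : SSet.{u}} {f g : A ⊗ T ⟶ K} :
    Htp (curry f) (curry g) ↔ Htp f g := by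
  have e0 : A ◁ (SSet.ι₀ : T ⟶ T ⊗ Δ[1]) ≫ (α_ A T Δ[1]).inv = SSet.ι₀ := rfl
  have e1 : A ◁ (SSet.ι₁ : T ⟶ T ⊗ Δ[1]) ≫ (α_ A T Δ[1]).inv = SSet.ι₁ := rfl
  constructor
  · rintro ⟨H, h0, h1⟩
    refine ⟨(α_ A T Δ[1]).hom ≫ uncurry H, ?_, ?_⟩
    · rw [← e0, Category.assoc, Iso.inv_hom_id_assoc, ← uncurry_natural_left, h0, uncurry_curry]
    · rw [← e1, Category.assoc, Iso.inv_hom_id_assoc, ← uncurry_natural_left, h1, uncurry_curry]
  · rintro ⟨H, h0, h1⟩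
    refine ⟨curry ((α_ A T Δ[1]).inv ≫ H), ?_, ?_⟩
    · rw [← curry_natural_left, ← Category.assoc, e0, h0]
    · rw [← curry_natural_left, ← Category.assoc, e1, h1]

theorem htp_uncurry_iff {T : SSet.{u}} {f g : T ⟶ (ihom A).obj K} :
    Htp (uncurry f) (uncurry g) ↔ Htp f g := by
  conv_rhs => rw [← curry_uncurry f, ← curry_uncurry g]
  exact htp_curry_iff.symm

/-! ## The key lemma -/

/-- A fibration of Kan complexes which is a homotopy equivalence is a trivial fibration. -/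
theorem rlp_mono_of_htpEquiv [KanComplex E] [KanComplex B] (p : E ⟶ B) [Fibration p] (s : B ⟶ E)
    (h₁ : Htp (p ≫ s) (𝟙 E)) (h₂ : Htp (s ≫ p) (𝟙 B)) :
    (MorphismProperty.monomorphisms SSet.{u}).rlp p := by
  -- a strict section
  obtain ⟨G, hG0, hG1⟩ := h₂
  obtain ⟨L, hL0, hLp⟩ := lift_of_anodyne (anodyne_ι₀ B) p s G hG0.symm
  let s' : B ⟶ E := SSet.ι₁ ≫ L
  have hsec : s' ≫ p = 𝟙 B := by rw [Category.assoc, hLp, hG1]
  have hs : Htp (𝟙 E) (p ≫ s') :=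
    h₁.symm.trans ((show Htp s s' from ⟨L, hL0, rfl⟩).comp_left p)
  -- a fibrewise homotopy
  obtain ⟨H, hH0, hH1⟩ := hs
  let q := (ihom E).map p
  obtain ⟨e, he1, he0, heq⟩ := exists_edge₂₂ q (curry H) (curry (H ≫ p ≫ s'))
    (by rw [tgt_curry, tgt_curry, hH1, reassoc_of% hH1, reassoc_of% hsec])
    (stdSimplex.σ (0 : Fin 2) ≫ curry H ≫ q)
    (by rw [← Category.assoc, σδ 1 (Or.inr rfl), Category.id_comp])
    (by rw [← Category.assoc, σδ 0 (Or.inl rfl), Category.id_comp, ← curry_natural_right,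
      ← curry_natural_right, Category.assoc, Category.assoc, hsec, Category.comp_id])
  have hW0 : SSet.ι₀ ≫ uncurry e = 𝟙 E := nm_injective (by
    rw [← src_curry, curry_uncurry, he1, src_curry, hH0])
  have hW1 : SSet.ι₁ ≫ uncurry e = p ≫ s' := nm_injective (by
    rw [← tgt_curry, curry_uncurry, he0, src_curry, reassoc_of% hH0])
  have hWp : uncurry e ≫ p = fst _ _ ≫ p := curry_injective (by
    rw [curry_natural_right, curry_uncurry, heq, reassoc_of% σδ₂.{u},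
      ← Category.assoc (stdSimplex.δ 1), src_curry, hH0, nm, Category.comp_id, ← curry_natural_right, ← curry_natural_left,
      whiskerLeft_fst_assoc])
  -- lifting
  intro A' X' i (hi : Mono i)
  refine ⟨fun {a b} sq => ⟨?_⟩⟩
  have hpi : a ≫ p ≫ s' = i ≫ b ≫ s' := sq.w_assoc s'
  obtain ⟨M, hM1, hMi, hMp⟩ := exists_lift_cyl 0 i p (fst _ _ ≫ b ≫ s') (a ▷ _ ≫ uncurry e)
    (by
      rw [whisker_δ_zero, Category.assoc, ι₁_comp_assoc, hW1, hpi, whiskerRight_fst_assoc])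
    (fst _ _ ≫ b)
    (by rw [Category.assoc, Category.assoc, hsec, Category.comp_id, whiskerLeft_fst_assoc])
    (by rw [Category.assoc, hWp, whiskerRight_fst_assoc, whiskerRight_fst_assoc, sq.w])
  exact ⟨
    { l := SSet.ι₀ ≫ M
      fac_left := by
        rw [← ι₀_comp_assoc, hMi, ι₀_comp_assoc, hW0, Category.comp_id]
      fac_right := by
        rw [Category.assoc, hMp, ι₀_fst_assoc] }⟩

end

end Vale.Agent.P213.SSetH
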