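import Vale.Agent.P213.Spec

/-!
# P213: subdivision of a simplicial set of chains (helper5)

If the simplices of `X` are the monotone maps into a poset `P` with image in a class `H` of chains
closed under nonempty subsets, then `sd X` is the nerve of the poset of chains in `H`.
-/

universe u

namespace Vale.Agent.P213.SdNerve

open CategoryTheory CategoryTheory.Limits Simplicial Opposite PartialOrder

noncomputable section

variable {P Q : Type u} [PartialOrder P] [PartialOrder Q]

/-- A monotone map as a simplex of the nerve. -/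
abbrev simp' {k : SimplexCategoryᵒᵖ} (f : Fin (k.unop.len + 1) → Q) (hf : Monotone f) :
    (nerve Q).obj k :=
  Monotone.functor hf

/-- The last entry of a simplex dominates the others. -/
theorem le_last {k : SimplexCategoryᵒᵖ} (w : (nerve Q).obj k) (i : Fin (k.unop.len + 1)) :
    w.obj i ≤ w.obj (Fin.last _) :=
  leOfHom (w.map (homOfLE (Fin.le_last i)))

theorem simplex_mono {k : SimplexCategoryᵒᵖ} (w : (nerve Q).obj k) :
    Monotone fun i => w.obj i := fun _ _ h => leOfHom (w.map (homOfLE h))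

/-- A finite chain is the image of an increasing map from an initial segment. -/
theorem exists_enum (s : NonemptyFiniteChains P) :
    ∃ (N : ℕ) (e : Fin (N + 1) →o P), (∀ a b, e a ≤ e b → a ≤ b) ∧
      (∀ y, y ∈ s.finset ↔ ∃ a, e a = y) := by
  classical
  let : LinearOrder {x // x ∈ s.finset} :=
    { Subtype.partialOrder _ with
      le_total := fun a b => s.comparable a b
      toDecidableLE := Classical.decRel _ }
  obtain ⟨N, hN⟩ : ∃ N, Fintype.card {x // x ∈ s.finset} = N + 1 :=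
    ⟨_, (Nat.sub_add_cancel (Fintype.card_pos_iff.2 ⟨⟨_, s.nonempty.choose_spec⟩⟩)).symm⟩
  let e := monoEquivOfFin {x // x ∈ s.finset} hN
  exact ⟨N, ⟨fun a => (e a).1, fun a b h => e.monotone h⟩,
    fun a b h => e.le_iff_le.1 h,
    fun y => ⟨fun hy => ⟨e.symm ⟨y, hy⟩, congrArg Subtype.val (e.apply_symm_apply _)⟩,
      fun ⟨a, ha⟩ => ha ▸ (e a).2⟩⟩

theorem map_finset_injective (g : Q →o P) (hg : ∀ a b, g a ≤ g b → a ≤ b) :
    Function.Injective fun s : NonemptyFiniteChains Q => s.map g := by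
  classical
  intro s t h
  refine NonemptyFiniteChains.ext (Finset.image_injective
    (f := fun a => g a) (fun a b hab => le_antisymm (hg a b hab.le) (hg b a hab.ge)) ?_)
  exact congrArg NonemptyFiniteChains.finset h

/-- Simplices of chains inside the image of `g` lift along `g`. -/
theorem exists_lift {k : SimplexCategoryᵒᵖ} (g : Q →o P) (hg : ∀ a b, g a ≤ g b → a ≤ b)
    (w : Fin (k.unop.len + 1) → NonemptyFiniteChains P) (hw : Monotone w)
    (h : ∀ i, ∀ y ∈ (w i).finset, ∃ a, g a = y) :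
    ∃ y : (nerve (NonemptyFiniteChains Q)).obj k, ∀ i, (y.obj i).map g = w i := by
  classical
  have hinj : Function.Injective g := fun a b hab => le_antisymm (hg a b hab.le) (hg b a hab.ge)
  have hne : ∀ i, ((w i).finset.preimage g hinj.injOn).Nonempty := fun i => by
    obtain ⟨y, hy⟩ := (w i).nonempty
    obtain ⟨a, rfl⟩ := h i y hy
    exact ⟨a, Finset.mem_preimage.2 hy⟩
  let c : Fin (k.unop.len + 1) → NonemptyFiniteChains Q := fun i =>
    { finset := (w i).finset.preimage g hinj.injOn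
      nonempty := hne i
      comparable := fun a b =>
        ((w i).comparable ⟨_, Finset.mem_preimage.1 a.2⟩ ⟨_, Finset.mem_preimage.1 b.2⟩).imp
          (fun h => hg _ _ h) fun h => hg _ _ h }
  have hc : Monotone c := fun i j hij x (hx : x ∈ (w i).finset.preimage g hinj.injOn) =>
    show x ∈ (w j).finset.preimage g hinj.injOn from
      Finset.mem_preimage.2 (hw hij (Finset.mem_preimage.1 hx))
  refine ⟨simp' c hc, fun i => NonemptyFiniteChains.ext (Finset.ext fun y => ?_)⟩
  rw [NonemptyFiniteChains.mem_map_iff]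
  constructor
  · rintro ⟨a, ha, rfl⟩
    exact Finset.mem_preimage.1 (show a ∈ (w i).finset.preimage g hinj.injOn from ha)
  · intro hy
    obtain ⟨a, rfl⟩ := h i y hy
    exact ⟨a, show a ∈ (w i).finset.preimage g hinj.injOn from Finset.mem_preimage.2 hy, rfl⟩

open Classical in
/-- The simplices of `X` are the monotone maps into `P` with image in `H`. -/
structure Chainy (X : SSet.{u}) (H : Finset P → Prop) where
  /-- the vertices -/
  v : ∀ {Δ : SimplexCategory}, X.obj (op Δ) → (Fin (Δ.len + 1) →o P)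
  nat : ∀ {Δ Δ' : SimplexCategory} (f : Δ' ⟶ Δ) (x : X.obj (op Δ)) (i : Fin (Δ'.len + 1)),
    v (X.map f.op x) i = v x (f.toOrderHom i)
  inj : ∀ {Δ : SimplexCategory}, Function.Injective (v (Δ := Δ))
  mem : ∀ {Δ : SimplexCategory} (x : X.obj (op Δ)), H (Finset.univ.image (v x))
  surj : ∀ {Δ : SimplexCategory} (f : Fin (Δ.len + 1) →o P),
    H (Finset.univ.image f) → ∃ x, v x = f
  down : ∀ s t : Finset P, t ⊆ s → t.Nonempty → H s → H t

/-- The chains in `H`. -/
abbrev Chains (H : Finset P → Prop) : Type u := {c : NonemptyFiniteChains P // H c.finset}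

namespace Chainy

variable {X Y : SSet.{u}} {H H' : Finset P → Prop} (C : Chainy X H)

/-- The vertices with the domain lifted. -/
def uv {Δ : SimplexCategory} (x : X.obj (op Δ)) : ULift.{u} (Fin (Δ.len + 1)) →o P :=
  ⟨fun a => C.v x a.down, fun _ _ h => (C.v x).monotone h⟩

/-- The image of a chain of vertices. -/
def img {Δ : SimplexCategory} (x : X.obj (op Δ))
    (c : NonemptyFiniteChains (ULift.{u} (Fin (Δ.len + 1)))) : Chains H :=
  ⟨c.map (C.uv x), C.down _ _ (fun y hy => by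
    classical
    obtain ⟨a, -, rfl⟩ := (NonemptyFiniteChains.mem_map_iff c _ y).1 hy
    exact Finset.mem_image.2 ⟨a.down, Finset.mem_univ _, rfl⟩) (c.map (C.uv x)).nonempty (C.mem x)⟩

theorem img_mono {Δ : SimplexCategory} (x : X.obj (op Δ)) : Monotone (C.img x) :=
  fun _ _ h => (NonemptyFiniteChains.orderHomMap (C.uv x)).monotone h

/-- The map of nerves given by a simplex. -/
def imgMap {Δ : SimplexCategory} (x : X.obj (op Δ)) :
    SimplexCategory.sd.{u}.obj Δ ⟶ nerve (Chains H) :=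
  nerveMap (C.img_mono x).functor

theorem imgMap_app_obj {Δ : SimplexCategory} (x : X.obj (op Δ)) {k : SimplexCategoryᵒᵖ}
    (y : (SimplexCategory.sd.{u}.obj Δ).obj k) (i : Fin (k.unop.len + 1)) :
    ((C.imgMap x).app k y).obj i = C.img x (y.obj i) := rfl

theorem imgMap_nat {Δ Δ' : SimplexCategory} (f : Δ' ⟶ Δ) (x : X.obj (op Δ)) :
    SimplexCategory.sd.{u}.map f ≫ C.imgMap x = C.imgMap (X.map f.op x) := by
  apply NatTrans.ext
  funext k
  refine ConcreteCategory.hom_ext _ _ fun y => ?_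
  refine nerve.ext_of_isThin (C := Chains H) ?_
  funext i
  refine Subtype.ext (NonemptyFiniteChains.ext (Finset.ext fun p => ?_))
  show p ∈ ((C.img x ((NonemptyFiniteChains.orderHomMap
    (SimplexCategory.toPartOrd.{u}.map f).hom) (y.obj i))).1).finset ↔
      p ∈ (C.img (X.map f.op x) (y.obj i)).1.finset
  constructor
  · intro h
    obtain ⟨b, hb, rfl⟩ := (NonemptyFiniteChains.mem_map_iff _ _ _).1 h
    obtain ⟨a, ha, rfl⟩ := (NonemptyFiniteChains.mem_map_iff _ _ _).1 hb
    exact (NonemptyFiniteChains.mem_map_iff _ _ _).2 ⟨a, ha, C.nat f x a.down⟩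
  · intro h
    obtain ⟨a, ha, rfl⟩ := (NonemptyFiniteChains.mem_map_iff _ _ _).1 h
    exact (NonemptyFiniteChains.mem_map_iff _ _ _).2 ⟨_,
      (NonemptyFiniteChains.mem_map_iff _ _ _).2 ⟨a, ha, rfl⟩, (C.nat f x a.down).symm⟩

/-- The cocone of images over the simplices. -/
def cocone : Cocone ((CostructuredArrow.proj uliftYoneda.{u} X ⋙ uliftYoneda.{u}) ⋙ SSet.sd.{u}) where
  pt := nerve (Chains H)
  ι :=
    { app := fun j => SSet.stdSimplex.sdIso.{u}.hom.app j.left ≫
        C.imgMap (SSet.yonedaEquiv (n := j.left) j.hom)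
      naturality := fun j j' φ => by
        have e1 := SSet.stdSimplex.sdIso.{u}.hom.naturality φ.left
        have e2 : X.map φ.left.op (SSet.yonedaEquiv (n := j'.left) j'.hom) =
            SSet.yonedaEquiv (n := j.left) j.hom := by
          rw [← CostructuredArrow.w φ]
          exact uliftYonedaEquiv_naturality (X := op j'.left) j'.hom φ.left.op
        show SSet.sd.map (SSet.stdSimplex.map φ.left) ≫ _ ≫ _ =
          (SSet.stdSimplex.sdIso.{u}.hom.app j.left ≫ _) ≫ 𝟙 _
        rw [Category.comp_id, ← e2, ← C.imgMap_nat, ← Category.assoc, ← Category.assoc]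
        exact congrArg (· ≫ _) e1 }

/-- `sd` of the canonical colimit. -/
def isColim (X : SSet.{u}) :
    IsColimit (SSet.sd.{u}.mapCocone (Presheaf.tautologicalCocone'.{u} X)) :=
  isColimitOfPreserves _ (Presheaf.isColimitTautologicalCocone'.{u} X)

/-- The comparison map. -/
def Φ : SSet.sd.obj X ⟶ nerve (Chains H) := (isColim X).desc C.cocone

theorem sd_Φ {Δ : SimplexCategory} (x : SSet.stdSimplex.obj Δ ⟶ X) :
    SSet.sd.map x ≫ C.Φ = SSet.stdSimplex.sdIso.hom.app Δ ≫ C.imgMap (SSet.yonedaEquiv x) :=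
  (isColim X).fac C.cocone (CostructuredArrow.mk (S := uliftYoneda.{u}) (Y := Δ) x)

theorem sd_hom_ext {Z : SSet.{u}} {g g' : SSet.sd.obj X ⟶ Z}
    (h : ∀ {Δ : SimplexCategory} (x : SSet.stdSimplex.obj Δ ⟶ X),
      SSet.sd.map x ≫ g = SSet.sd.map x ≫ g') : g = g' :=
  (isColim X).hom_ext fun j => h (Δ := j.left) j.hom

/-- A simplex of the subdivision of a simplex of `X`. -/
def emb {Δ : SimplexCategory} (x : X.obj (op Δ)) :
    SimplexCategory.sd.{u}.obj Δ ⟶ SSet.sd.obj X :=
  SSet.stdSimplex.sdIso.inv.app Δ ≫ SSet.sd.map (SSet.yonedaEquiv.symm x)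

theorem emb_Φ {Δ : SimplexCategory} (x : X.obj (op Δ)) : emb x ≫ C.Φ = C.imgMap x := by
  rw [emb, Category.assoc, C.sd_Φ, Equiv.apply_symm_apply, Iso.inv_hom_id_app_assoc]

theorem emb_nat {Δ Δ' : SimplexCategory} (f : Δ' ⟶ Δ) (x : X.obj (op Δ)) :
    SimplexCategory.sd.{u}.map f ≫ emb x = emb (X.map f.op x) := by
  have e : SSet.yonedaEquiv.symm (X.map f.op x) =
      SSet.stdSimplex.map f ≫ SSet.yonedaEquiv.symm x :=
    uliftYonedaEquiv_symm_map f.op x
  rw [emb, emb, e, Functor.map_comp]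
  exact SSet.stdSimplex.sdIso.inv.naturality_assoc f _

theorem exists_emb {k : SimplexCategoryᵒᵖ} (z : (SSet.sd.obj X).obj k) :
    ∃ (Δ : SimplexCategory) (x : X.obj (op Δ)) (y : (SimplexCategory.sd.{u}.obj Δ).obj k),
      (emb x).app k y = z := by
  obtain ⟨j, w, hw⟩ := Types.jointly_surjective _
    (isColimitOfPreserves ((evaluation _ _).obj k) (isColim X)) z
  refine ⟨j.left, SSet.yonedaEquiv (n := j.left) j.hom,
    (SSet.stdSimplex.sdIso.hom.app j.left).app k w, ?_⟩
  have e : SSet.stdSimplex.sdIso.hom.app j.left ≫ emb (SSet.yonedaEquiv (n := j.left) j.hom) =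
      SSet.sd.map j.hom := by
    rw [emb, Iso.hom_inv_id_app_assoc]
    exact congrArg (fun q : SSet.stdSimplex.obj j.left ⟶ X => SSet.sd.map q)
      (SSet.yonedaEquiv.symm_apply_apply j.hom)
  exact (ConcreteCategory.congr_hom (congr_app e k) w).trans hw

theorem Φ_app_emb {Δ : SimplexCategory} (x : X.obj (op Δ)) {k : SimplexCategoryᵒᵖ}
    (y : (SimplexCategory.sd.{u}.obj Δ).obj k) :
    C.Φ.app k ((emb x).app k y) = (C.imgMap x).app k y :=
  ConcreteCategory.congr_hom (congr_app (C.emb_Φ x) k) y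

/-- An increasing enumeration of a chain in `H` is a simplex of `X`. -/
theorem exists_top (c : Chains H) :
    ∃ (N : ℕ) (x : X.obj (op ⦋N⦌)), (∀ a b, C.uv x a ≤ C.uv x b → a ≤ b) ∧
      (∀ y, y ∈ c.1.finset ↔ ∃ a, C.uv x a = y) := by
  classical
  obtain ⟨N, e, he, hs⟩ := exists_enum c.1
  obtain ⟨x, hx⟩ := C.surj (Δ := ⦋N⦌) e (by
    have : Finset.univ.image e = c.1.finset := Finset.ext fun y => by simp [hs y]
    exact this.symm ▸ c.2)
  refine ⟨N, x, fun a b h => ?_, fun y => ?_⟩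
  · simp only [uv, hx, OrderHom.coe_mk] at h
    exact he a.down b.down h
  · rw [hs]
    exact ⟨fun ⟨a, ha⟩ => ⟨⟨a⟩, by simpa [uv, hx] using ha⟩,
      fun ⟨a, ha⟩ => ⟨a.down, by simpa [uv, hx] using ha⟩⟩

/-- Every element is in normal form over the enumeration of its top chain. -/
theorem exists_normal {k : SimplexCategoryᵒᵖ} (z : (SSet.sd.obj X).obj k) {N : ℕ}
    (x : X.obj (op ⦋N⦌)) (hx : ∀ a b, C.uv x a ≤ C.uv x b → a ≤ b)
    (hs : ∀ y, y ∈ ((C.Φ.app k z).obj (Fin.last _)).1.finset ↔ ∃ a, C.uv x a = y) :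
    ∃ y, (emb x).app k y = z := by
  classical
  obtain ⟨Δ, x₀, y₀, rfl⟩ := exists_emb z
  obtain ⟨M, d, hd, hdt⟩ := exists_enum (y₀.obj (Fin.last _))
  let f : ⦋M⦌ ⟶ Δ := SimplexCategory.Hom.mk ⟨fun a => (d a).down, fun a b h => d.monotone h⟩
  obtain ⟨y₁, hy₁⟩ := exists_lift (SimplexCategory.toPartOrd.{u}.map f).hom
    (fun a b h => hd a.down b.down h) (fun i => y₀.obj i) (simplex_mono y₀)
    (fun i y hy => by
      obtain ⟨a, ha⟩ := (hdt y).1 (le_last y₀ i hy)
      exact ⟨⟨a⟩, ha⟩)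
  have hy₀ : (SimplexCategory.sd.{u}.map f).app k y₁ = y₀ :=
    nerve.ext_of_isThin (funext fun i => hy₁ i)
  have hmem : ∀ a, ∃ b : Fin (N + 1), C.uv x ⟨b⟩ = C.v (X.map f.op x₀) a := by
    intro a
    obtain ⟨b, hb⟩ := (hs (C.v (X.map f.op x₀) a)).1 (by
      rw [C.Φ_app_emb, C.imgMap_app_obj, C.nat]
      exact (NonemptyFiniteChains.mem_map_iff _ _ _).2 ⟨d a, (hdt _).2 ⟨a, rfl⟩, rfl⟩)
    exact ⟨b.down, hb⟩
  choose σ hσ using hmem
  have hσm : Monotone σ := fun a b hab => hx ⟨σ a⟩ ⟨σ b⟩ (by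
    rw [hσ a, hσ b]; exact (C.v (X.map f.op x₀)).monotone hab)
  let g : ⦋M⦌ ⟶ ⦋N⦌ := SimplexCategory.Hom.mk ⟨σ, hσm⟩
  have hfg : X.map g.op x = X.map f.op x₀ := C.inj (OrderHom.ext _ _ (funext fun a => by
    rw [C.nat g x a]; exact hσ a))
  refine ⟨(SimplexCategory.sd.{u}.map g).app k y₁, ?_⟩
  have e1 := ConcreteCategory.congr_hom (congr_app (emb_nat g x) k) y₁
  have e2 := ConcreteCategory.congr_hom (congr_app (emb_nat f x₀) k) y₁
  rw [hfg] at e1
  rw [← hy₀]
  exact e1.trans e2.symm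

theorem Φ_bijective (k : SimplexCategoryᵒᵖ) : Function.Bijective (C.Φ.app k) := by
  constructor
  · intro z₁ z₂ h
    obtain ⟨N, x, hx, hs⟩ := C.exists_top ((C.Φ.app k z₁).obj (Fin.last _))
    obtain ⟨y₁, rfl⟩ := C.exists_normal z₁ x hx hs
    obtain ⟨y₂, rfl⟩ := C.exists_normal z₂ x hx (fun y => by rw [← h]; exact hs y)
    rw [C.Φ_app_emb, C.Φ_app_emb] at h
    refine congrArg _ (nerve.ext_of_isThin (funext fun i => map_finset_injective (C.uv x) hx ?_))
    exact congrArg (fun w : (nerve (Chains H)).obj k => (w.obj i).1) h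
  · intro w
    obtain ⟨N, x, hx, hs⟩ := C.exists_top (w.obj (Fin.last _))
    obtain ⟨y, hy⟩ := exists_lift (C.uv x) hx (fun i => (w.obj i).1)
      (fun a b h => simplex_mono w h) (fun i y hy => (hs y).1 (le_last w i hy))
    exact ⟨(emb x).app k y, (C.Φ_app_emb x y).trans
      (nerve.ext_of_isThin (funext fun i => Subtype.ext (hy i)))⟩

instance isIso_Φ : IsIso C.Φ := by
  have : ∀ k, IsIso (C.Φ.app k) := fun k => (isIso_iff_bijective _).2 (C.Φ_bijective k)
  exact NatIso.isIso_of_isIso_app _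

/-- The subdivision as a nerve of chains. -/
def iso : SSet.sd.obj X ≅ nerve (Chains H) := asIso C.Φ

theorem Φ_naturality (D : Chainy Y H') (g : X ⟶ Y) (hle : ∀ s, H s → H' s)
    (hv : ∀ {Δ : SimplexCategory} (x : X.obj (op Δ)), D.v (g.app _ x) = C.v x) :
    SSet.sd.map g ≫ D.Φ = C.Φ ≫ nerveMap (Monotone.functor
      (f := fun c : Chains H => (⟨c.1, hle _ c.2⟩ : Chains H')) fun _ _ h => h) := by
  refine sd_hom_ext fun {Δ} x => ?_
  rw [← Category.assoc, ← Functor.map_comp, D.sd_Φ, ← Category.assoc, C.sd_Φ, Category.assoc]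
  congr 1
  apply NatTrans.ext
  funext k
  refine ConcreteCategory.hom_ext _ _ fun y => ?_
  refine nerve.ext_of_isThin (C := Chains H') (funext fun i => Subtype.ext ?_)
  show (y.obj i).map (D.uv _) = (y.obj i).map (C.uv _)
  congr 1
  refine OrderHom.ext _ _ (funext fun a => ?_)
  exact DFunLike.congr_fun (hv (SSet.yonedaEquiv x)) a.down

end Chainy

end

end Vale.Agent.P213.SdNerve
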