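import Vale.Agent.P213.SSet.Homotopy

/-!
# P213: weak equivalences of simplicial sets

A map is a weak homotopy equivalence when it induces bijections on homotopy classes of maps into
every Kan complex. A monomorphism is one iff it has the left lifting property against the
restriction maps between function complexes of Kan complexes.
-/

universe u

namespace Vale.Agent.P213.SSetH

open CategoryTheory MonoidalCategory CartesianMonoidalCategory MonoidalClosed Simplicial Limits
  HomotopicalAlgebra SSet SSet.modelCategoryQuillen Opposite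

noncomputable section

variable {X Y Z A B E K : SSet.{u}}

/-- Weak homotopy equivalences: `[Y, K] → [X, K]` is bijective for every Kan complex `K`. -/
def WE : MorphismProperty SSet.{u} := fun X Y f => ∀ (K : SSet.{u}), KanComplex K →
  (∀ g : X ⟶ K, ∃ h : Y ⟶ K, Htp (f ≫ h) g) ∧
    ∀ h h' : Y ⟶ K, Htp (f ≫ h) (f ≫ h') → Htp h h'

theorem we_of_isIso (f : X ⟶ Y) [IsIso f] : WE f := fun _ _ =>
  ⟨fun g => ⟨inv f ≫ g, by rw [IsIso.hom_inv_id_assoc]; exact htp_refl g⟩,
    fun h h' hh => by simpa using hh.comp_left (inv f)⟩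

theorem WE.comp {f : X ⟶ Y} {g : Y ⟶ Z} (hf : WE f) (hg : WE g) : WE (f ≫ g) := fun K hK => by
  refine ⟨fun k => ?_, fun h h' hh => (hg K hK).2 h h' ((hf K hK).2 _ _ (by simpa using hh))⟩
  obtain ⟨a, ha⟩ := (hf K hK).1 k
  obtain ⟨b, hb⟩ := (hg K hK).1 a
  exact ⟨b, by simpa using (hb.comp_left f).trans ha⟩

theorem WE.of_comp_left {f : X ⟶ Y} {g : Y ⟶ Z} (hf : WE f) (hfg : WE (f ≫ g)) : WE g :=
  fun K hK => by
  refine ⟨fun k => ?_, fun h h' hh => (hfg K hK).2 h h' (by simpa using hh.comp_left f)⟩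
  obtain ⟨b, hb⟩ := (hfg K hK).1 (f ≫ k)
  exact ⟨b, (hf K hK).2 _ _ (by simpa using hb)⟩

theorem WE.of_comp_right {f : X ⟶ Y} {g : Y ⟶ Z} (hg : WE g) (hfg : WE (f ≫ g)) : WE f :=
  fun K hK => by
  refine ⟨fun k => ?_, fun h h' hh => ?_⟩
  · obtain ⟨b, hb⟩ := (hfg K hK).1 k
    exact ⟨g ≫ b, by simpa using hb⟩
  · obtain ⟨a, ha⟩ := (hg K hK).1 h
    obtain ⟨a', ha'⟩ := (hg K hK).1 h'
    have := (hfg K hK).2 a a' (by
      simpa using ((ha.comp_left f).trans hh).trans (ha'.comp_left f).symm)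
    exact (ha.symm.trans (this.comp_left g)).trans ha'

/-- Homotopy equivalences are weak homotopy equivalences. -/
theorem we_of_htpEquiv (f : X ⟶ Y) (g : Y ⟶ X) (h₁ : Htp (f ≫ g) (𝟙 X)) (h₂ : Htp (g ≫ f) (𝟙 Y)) :
    WE f := fun K hK => by
  refine ⟨fun k => ⟨g ≫ k, by simpa using h₁.comp_right k⟩, fun h h' hh => ?_⟩
  have e := hh.comp_left g
  have e1 : Htp (g ≫ f ≫ h) h := by simpa using h₂.comp_right h
  have e2 : Htp (g ≫ f ≫ h') h' := by simpa using h₂.comp_right h'
  exact (e1.symm.trans e).trans e2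

/-- Maps homotopic to weak equivalences are weak equivalences. -/
theorem WE.of_htp {f f' : X ⟶ Y} (hf : WE f) (h : Htp f f') : WE f' := fun K hK => by
  refine ⟨fun k => ?_, fun a a' ha => (hf K hK).2 a a' ?_⟩
  · obtain ⟨b, hb⟩ := (hf K hK).1 k
    exact ⟨b, (h.comp_right b).symm.trans hb⟩
  · exact ((h.comp_right a).trans ha).trans (h.comp_right a').symm

instance : WE.{u}.IsMultiplicative where
  id_mem X := we_of_isIso (𝟙 X)
  comp_mem _ _ hf hg := WE.comp hf hg

instance : WE.{u}.HasTwoOutOfThreeProperty where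
  of_postcomp _ _ hg hfg := WE.of_comp_right hg hfg
  of_precomp _ _ hf hfg := WE.of_comp_left hf hfg

instance : WE.{u}.RespectsIso where
  precomp e (_ : IsIso e) _ hf := WE.comp (we_of_isIso e) hf
  postcomp e (_ : IsIso e) _ hf := WE.comp hf (we_of_isIso e)

instance : WE.{u}.IsStableUnderRetracts where
  of_retract {X Y Z W f g} r hg K hK := by
    have iw : r.left.i ≫ g = f ≫ r.right.i := r.i_w
    have rw' : r.left.r ≫ f = g ≫ r.right.r := r.r_w
    refine ⟨fun k => ?_, fun h h' hh => ?_⟩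
    · obtain ⟨b, hb⟩ := (hg K hK).1 (r.left.r ≫ k)
      refine ⟨r.right.i ≫ b, ?_⟩
      have := hb.comp_left r.left.i
      rw [reassoc_of% iw, r.left.retract_assoc] at this
      exact this
    · have := (hg K hK).2 (r.right.r ≫ h) (r.right.r ≫ h') (by
        rw [← reassoc_of% rw', ← reassoc_of% rw']
        exact hh.comp_left _)
      have := this.comp_left r.right.i
      rwa [r.right.retract_assoc, r.right.retract_assoc] at this

theorem we_whiskerLeft {f : X ⟶ Y} (hf : WE f) (T : SSet.{u}) : WE (T ◁ f) := fun K hK => by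
  obtain ⟨hs, hi⟩ := hf ((ihom T).obj K) inferInstance
  refine ⟨fun g => ?_, fun h h' hh => ?_⟩
  · obtain ⟨h, hh⟩ := hs (curry g)
    refine ⟨uncurry h, ?_⟩
    rw [← uncurry_natural_left, ← uncurry_curry g]
    exact htp_uncurry_iff.2 hh
  · refine htp_curry_iff.1 (hi _ _ ?_)
    rw [← curry_natural_left, ← curry_natural_left]
    exact htp_curry_iff.2 hh

theorem we_whiskerRight {f : X ⟶ Y} (hf : WE f) (T : SSet.{u}) : WE (f ▷ T) :=
  (WE.arrow_mk_iso_iff (Arrow.isoMk (β_ T X) (β_ T Y)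
    (by simp : (β_ T X).hom ≫ f ▷ T = (T ◁ f) ≫ (β_ T Y).hom))).1 (we_whiskerLeft hf T)

/-! ## Two points -/

theorem exists_boundary_desc (a b : (Δ[0] : SSet.{u}) ⟶ Z) :
    ∃ φ : (∂Δ[1] : SSet.{u}) ⟶ Z, boundary.ι 1 ≫ φ = a ∧ boundary.ι 0 ≫ φ = b := by
  have sq : Subcomplex.BicartSq.{u} (⊥ : (Δ[1] : SSet.{u}).Subcomplex) (stdSimplex.face {0})
      (stdSimplex.face {1}) ∂Δ[1] :=
    { sup_eq := by
        rw [boundary_eq_iSup]
        apply le_antisymm
        · exact sup_le (le_iSup_of_le 1 (le_of_eq (by congr))) (le_iSup_of_le 0 (le_of_eq (by congr)))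
        · refine iSup_le fun i => ?_
          fin_cases i
          · exact le_sup_of_le_right (le_of_eq (by congr))
          · exact le_sup_of_le_left (le_of_eq (by congr))
      inf_eq := by rw [stdSimplex.face_inter_face]; simp }
  refine ⟨sq.isPushout.desc ((stdSimplex.faceSingletonIso (0 : Fin 2)).inv ≫ a)
    ((stdSimplex.faceSingletonIso (1 : Fin 2)).inv ≫ b)
    (Subcomplex.isInitialBot.hom_ext _ _), ?_, ?_⟩
  · have e : boundary.ι.{u} (1 : Fin 2) =
        (stdSimplex.faceSingletonIso (0 : Fin 2)).hom ≫ Subcomplex.homOfLE sq.le₂₄ := by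
      rw [← cancel_mono ∂Δ[1].ι, boundary.ι_ι, Category.assoc, Subcomplex.homOfLE_ι]
      apply SSet.yonedaEquiv.injective
      ext k
      fin_cases k
      rfl
    rw [e, Category.assoc]
    exact (congrArg (_ ≫ ·) (sq.isPushout.inl_desc _ _ _)).trans (Iso.hom_inv_id_assoc _ _)
  · have e : boundary.ι.{u} (0 : Fin 2) =
        (stdSimplex.faceSingletonIso (1 : Fin 2)).hom ≫ Subcomplex.homOfLE sq.le₃₄ := by
      rw [← cancel_mono ∂Δ[1].ι, boundary.ι_ι, Category.assoc, Subcomplex.homOfLE_ι]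
      apply SSet.yonedaEquiv.injective
      ext k
      fin_cases k
      rfl
    rw [e, Category.assoc]
    exact (congrArg (_ ≫ ·) (sq.isPushout.inr_desc _ _ _)).trans (Iso.hom_inv_id_assoc _ _)

/-- Maps with the right lifting property against monomorphisms lift paths with given ends. -/
theorem exists_path_lift (p : E ⟶ B) (hp : (MorphismProperty.monomorphisms SSet.{u}).rlp p)
    (a b : (Δ[0] : SSet.{u}) ⟶ E) (c : (Δ[1] : SSet.{u}) ⟶ B)
    (ha : a ≫ p = stdSimplex.δ (1 : Fin 2) ≫ c) (hb : b ≫ p = stdSimplex.δ (0 : Fin 2) ≫ c) :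
    ∃ e : (Δ[1] : SSet.{u}) ⟶ E, stdSimplex.δ (1 : Fin 2) ≫ e = a ∧
      stdSimplex.δ (0 : Fin 2) ≫ e = b ∧ e ≫ p = c := by
  obtain ⟨φ, h1, h0⟩ := exists_boundary_desc a b
  have := hp ∂Δ[1].ι (MorphismProperty.monomorphisms.infer_property _)
  have w : φ ≫ p = ∂Δ[1].ι ≫ c := boundary.hom_ext fun i => by
    fin_cases i
    · simp only [Fin.zero_eta, reassoc_of% h0, boundary.ι_ι_assoc, hb]
    · simp only [Fin.mk_one, reassoc_of% h1, boundary.ι_ι_assoc, ha]
  refine ⟨(CommSq.mk w).lift, ?_, ?_, CommSq.fac_right _⟩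
  · rw [← boundary.ι_ι, Category.assoc, CommSq.fac_left, h1]
  · rw [← boundary.ι_ι, Category.assoc, CommSq.fac_left, h0]

/-! ## Acyclic monomorphisms -/

/-- A monomorphism and a Kan complex. -/
structure RestrData : Type (u + 1) where
  /-- the source -/
  src : SSet.{u}
  /-- the target -/
  tgt : SSet.{u}
  /-- the monomorphism -/
  map : src ⟶ tgt
  /-- the Kan complex -/
  obj : SSet.{u}
  mono : Mono map
  kan : KanComplex obj

/-- The restriction maps `K^Y → K^X` along monomorphisms, for Kan complexes `K`. -/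
def RestrMaps : MorphismProperty SSet.{u} :=
  MorphismProperty.ofHoms fun d : RestrData.{u} => (pre d.map).app d.obj

theorem restrMaps_mk (j : X ⟶ Y) [Mono j] (K : SSet.{u}) [KanComplex K] :
    RestrMaps ((pre j).app K) :=
  MorphismProperty.ofHoms.mk (f := fun d : RestrData.{u} => (pre d.map).app d.obj)
    ⟨X, Y, j, K, inferInstance, inferInstance⟩

theorem hasLiftingProperty_pre_comm (i : A ⟶ B) (j : X ⟶ Y) (K : SSet.{u}) :
    HasLiftingProperty i ((pre j).app K) ↔ HasLiftingProperty j ((pre i).app K) := by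
  let sqji := Functor.PushoutObjObj.ofHasPushout (curriedTensor SSet.{u}) j i
  have h₁ := internalHomAdjunction₂.hasLiftingProperty_iff sqji
    (Functor.PullbackObjObj.ofIsTerminal MonoidalClosed.internalHom j (terminal.from K)
      terminalIsTerminal)
  have h₂ := internalHomAdjunction₂.hasLiftingProperty_iff sqji.flipTensor
    (Functor.PullbackObjObj.ofIsTerminal MonoidalClosed.internalHom i (terminal.from K)
      terminalIsTerminal)
  have h₃ : HasLiftingProperty sqji.ι (terminal.from K) ↔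
      HasLiftingProperty sqji.flipTensor.ι (terminal.from K) :=
    HasLiftingProperty.iff_of_arrow_iso_left (Arrow.isoMk (Iso.refl _) (β_ B Y).symm
      (by simp [Functor.PushoutObjObj.flipTensor]; rfl) : Arrow.mk sqji.ι ≅ Arrow.mk sqji.flipTensor.ι) _
  exact h₁.symm.trans (h₃.trans h₂)

theorem llp_restrMaps_iff (i : A ⟶ B) :
    RestrMaps.llp i ↔ ∀ (K : SSet.{u}) [KanComplex K],
      (MorphismProperty.monomorphisms SSet.{u}).rlp ((pre i).app K) := by
  refine ⟨fun h K _ X Y j (_ : Mono j) => (hasLiftingProperty_pre_comm i j K).1 (h _ (restrMaps_mk j K)),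
    fun h X Y p hp => ?_⟩
  cases hp with
  | mk d =>
    have := d.mono
    have := d.kan
    exact (hasLiftingProperty_pre_comm i d.map d.obj).2 (h d.obj _ (.infer_property d.map))

/-- Restriction along a monomorphism which is a weak equivalence is a trivial fibration. -/
theorem rlp_pre_of_we (i : A ⟶ B) [Mono i] (hi : WE i) (K : SSet.{u}) [KanComplex K] :
    (MorphismProperty.monomorphisms SSet.{u}).rlp ((pre i).app K) := by
  obtain ⟨h, hh⟩ := (we_whiskerRight hi ((ihom A).obj K) K inferInstance).1 ((ihom.ev A).app K)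
  have hev : ∀ C : SSet.{u}, uncurry (𝟙 ((ihom C).obj K)) = (ihom.ev C).app K := fun C =>
    uncurry_id_eq_ev C K
  have h2 : Htp (curry h ≫ (pre i).app K) (𝟙 _) := by
    rw [← htp_uncurry_iff, uncurry_pre_app, uncurry_curry, hev]
    exact hh
  refine rlp_mono_of_htpEquiv _ (curry h) ?_ h2
  rw [← htp_uncurry_iff]
  refine (we_whiskerRight hi ((ihom B).obj K) K inferInstance).2 _ _ ?_
  rw [← uncurry_pre_app, ← uncurry_pre_app, htp_uncurry_iff, Category.assoc, Category.id_comp]
  simpa using h2.comp_left ((pre i).app K)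

theorem nm_pre (i : A ⟶ B) (f : B ⟶ K) : nm f ≫ (pre i).app K = nm (i ≫ f) := by
  rw [nm, nm, curry_pre_app, whiskerRight_fst_assoc]

/-- Maps with that lifting property are weak equivalences. -/
theorem we_of_rlp_pre (i : A ⟶ B)
    (hi : ∀ (K : SSet.{u}) [KanComplex K],
      (MorphismProperty.monomorphisms SSet.{u}).rlp ((pre i).app K)) : WE i := fun K hK => by
  refine ⟨fun g => ?_, fun h h' hh => ?_⟩
  · have hI : Mono (initial.to (Δ[0] : SSet.{u})) := inferInstance
    have := hi K _ (MorphismProperty.monomorphisms.infer_property (initial.to (Δ[0] : SSet.{u})))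
    have w : initial.to _ ≫ (pre i).app K = initial.to (Δ[0] : SSet.{u}) ≫ nm g :=
      initialIsInitial.hom_ext _ _
    refine ⟨(ptIso B).inv ≫ uncurry (CommSq.mk w).lift, ?_⟩
    have e : i ≫ (ptIso B).inv ≫ uncurry (CommSq.mk w).lift = g := by
      apply (cancel_epi (ptIso A).hom).1
      apply curry_injective
      refine Eq.trans ?_ ((CommSq.mk w).fac_right)
      rw [← curry_uncurry ((CommSq.mk w).lift ≫ (pre i).app K), uncurry_pre_app]
      congr 1
      have hn : (ptIso A).hom ≫ i = i ▷ _ ≫ (ptIso B).hom :=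
        (whiskerRight_fst i (Δ[0] : SSet.{u})).symm
      rw [reassoc_of% hn, Iso.hom_inv_id_assoc]
    rw [e]
    exact htp_refl g
  · obtain ⟨c, h1, h0⟩ := hh.edge
    obtain ⟨e, he1, he0, -⟩ := exists_path_lift _ (hi K) (nm h) (nm h') c
      (by rw [nm_pre, h1]) (by rw [nm_pre, h0])
    exact htp_of_edge e he1 he0

theorem llp_restrMaps_iff_we (i : A ⟶ B) [Mono i] : RestrMaps.llp i ↔ WE i :=
  ⟨fun h => we_of_rlp_pre i ((llp_restrMaps_iff i).1 h),
    fun h => (llp_restrMaps_iff i).2 fun K _ => rlp_pre_of_we i h K⟩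

theorem we_of_llp {i : A ⟶ B} (h : RestrMaps.llp i) : WE i :=
  we_of_rlp_pre i ((llp_restrMaps_iff i).1 h)

/-- Monomorphisms which are weak equivalences. -/
def TrivCof : MorphismProperty SSet.{u} := MorphismProperty.monomorphisms _ ⊓ WE

theorem trivCof_eq : TrivCof.{u} = MorphismProperty.monomorphisms _ ⊓ RestrMaps.llp := by
  ext A B i
  exact and_congr_right fun (hi : Mono i) => (llp_restrMaps_iff_we i).symm

/-- Anodyne extensions are weak equivalences. -/
theorem we_of_anodyne {i : A ⟶ B} (hi : anodyneExtensions i) : WE i := by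
  refine we_of_llp fun X Y p hp => ?_
  cases hp with
  | mk d =>
    have := d.mono
    have := d.kan
    exact hi _ (by rw [← HomotopicalAlgebra.fibration_iff]; infer_instance)

/-- Extensions from an acyclic monomorphism into a Kan complex. -/
theorem exists_extension (i : A ⟶ B) [Mono i] (hi : WE i) (K : SSet.{u}) [KanComplex K]
    (g : A ⟶ K) : ∃ h : B ⟶ K, i ≫ h = g := by
  obtain ⟨h, H, hH0, hH1⟩ := (hi K inferInstance).1 g
  obtain ⟨L, -, hLi, -⟩ := exists_lift_cyl 1 i (terminal.from K) (fst _ _ ≫ h) H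
    (by rw [whisker_δ_one, Category.assoc, hH0, whiskerRight_fst_assoc]) (terminal.from _)
    (terminal.hom_ext _ _) (terminal.hom_ext _ _)
  exact ⟨SSet.ι₁ ≫ L, by rw [← ι₁_comp_assoc, hLi, hH1]⟩

end

end Vale.Agent.P213.SSetH
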